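import Crest.Agent.R65.Mn.Defs

/-! Row 65, key lemma, field-theoretic part: definitions.

`BB` is the polar form of `QQ`, `perp` the orthogonal complement, `Gen S D` says that the skew matrix
`S` is generic (the derivation `D i j` moves `S` in the direction `E_ij - E_ji`), `nv S η = (-S η, η)`
is the general vector in the kernel of the projection `prj S`, `Tan x` is the tangent space
`{Θ x}` of the `ℂ`-locus of `x` at `x`. -/

set_option autoImplicit false

open Finset

namespace Crest.Agent.R65.KL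

open Mn

/-- the polar form of `QQ` -/
def BB {d : ℕ} {R : Type} [CommRing R] (x y : Ix d → R) : R :=
  ∑ i, (x (Sum.inl i) * y (Sum.inr i) + x (Sum.inr i) * y (Sum.inl i))

theorem BB_add_right {d : ℕ} {R : Type} [CommRing R] (x y z : Ix d → R) :
    BB x (y + z) = BB x y + BB x z := by
  simp only [BB, Pi.add_apply, ← sum_add_distrib]
  exact sum_congr rfl fun i _ => by ring

theorem BB_smul_right {d : ℕ} {R : Type} [CommRing R] (c : R) (x y : Ix d → R) :
    BB x (c • y) = c * BB x y := by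
  simp only [BB, Pi.smul_apply, smul_eq_mul, mul_sum]
  exact sum_congr rfl fun i _ => by ring

theorem BB_comm {d : ℕ} {R : Type} [CommRing R] (x y : Ix d → R) : BB x y = BB y x := by
  simp only [BB]
  exact sum_congr rfl fun i _ => by ring

/-- the orthogonal complement for `BB` -/
def perp {d : ℕ} {R : Type} [Field R] (T : Submodule R (Ix d → R)) : Submodule R (Ix d → R) where
  carrier := {w | ∀ t ∈ T, BB t w = 0}
  add_mem' := fun ha hb t ht => by rw [BB_add_right, ha t ht, hb t ht, add_zero]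
  zero_mem' := fun t _ => by simp [BB]
  smul_mem' := fun c _ ha t ht => by rw [BB_smul_right, ha t ht, mul_zero]

theorem mem_perp {d : ℕ} {R : Type} [Field R] {T : Submodule R (Ix d → R)} {w : Ix d → R} :
    w ∈ perp T ↔ ∀ t ∈ T, BB t w = 0 := Iff.rfl

/-- the entries of `E_ij - E_ji` -/
def Eu {d : ℕ} (R : Type) [CommRing R] (i j k l : Fin d) : R :=
  (if k = i ∧ l = j then 1 else 0) - (if k = j ∧ l = i then 1 else 0)

/-- the generic skew matrix in an extension of `LL d` -/
noncomputable def So (d : ℕ) (Ω : Type) [Field Ω] [Algebra (LL d) Ω] (i j : Fin d) : Ω :=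
  algebraMap (LL d) Ω (SS d i j)

/-- a generic skew matrix with its derivations -/
structure Gen {d : ℕ} {Ω : Type} [Field Ω] [Algebra ℂ Ω] (S : Fin d → Fin d → Ω)
    (D : Fin d → Fin d → Derivation ℂ Ω Ω) : Prop where
  skew : ∀ i j, S j i = -S i j
  der : ∀ i j k l, D i j (S k l) = Eu Ω i j k l

/-- the vector `(-S η, η)` -/
def nv {d : ℕ} {R : Type} [CommRing R] (S : Fin d → Fin d → R) (η : Fin d → R) : Ix d → R :=
  Sum.elim (fun i => -∑ j, S i j * η j) η

/-- `prj S` as a linear map -/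
def prjL {d : ℕ} {R : Type} [CommRing R] (S : Fin d → Fin d → R) :
    (Ix d → R) →ₗ[R] (Fin d → R) where
  toFun := prj S
  map_add' x y := by
    funext i
    simp only [prj, Pi.add_apply, mul_add, sum_add_distrib]
    ring
  map_smul' c x := by
    funext i
    simp only [prj, Pi.smul_apply, smul_eq_mul, RingHom.id_apply, mul_add, mul_sum]
    congr 1
    exact sum_congr rfl fun j _ => by ring

@[simp] theorem prjL_apply {d : ℕ} {R : Type} [CommRing R] (S : Fin d → Fin d → R)
    (x : Ix d → R) : prjL S x = prj S x := rfl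

/-- the tangent space `{Θ x}` -/
def Tan {ι Ω : Type} [Field Ω] [Algebra ℂ Ω] (x : ι → Ω) : Submodule Ω (ι → Ω) where
  carrier := {t | ∃ Θ : Derivation ℂ Ω Ω, t = fun k => Θ (x k)}
  add_mem' := by
    rintro _ _ ⟨Θ, rfl⟩ ⟨Θ', rfl⟩
    exact ⟨Θ + Θ', rfl⟩
  zero_mem' := ⟨0, rfl⟩
  smul_mem' := by
    rintro c _ ⟨Θ, rfl⟩
    exact ⟨c • Θ, rfl⟩

theorem mem_Tan {ι Ω : Type} [Field Ω] [Algebra ℂ Ω] {x t : ι → Ω} :
    t ∈ Tan x ↔ ∃ Θ : Derivation ℂ Ω Ω, t = fun k => Θ (x k) := Iff.rfl

/-- `T` is stable under the derivation `Θ` acting on the coordinates -/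
def Stab {ι Ω : Type} [Field Ω] [Algebra ℂ Ω] (Θ : Derivation ℂ Ω Ω)
    (T : Submodule Ω (ι → Ω)) : Prop :=
  ∀ t ∈ T, (fun k => Θ (t k)) ∈ T

/-- a complex vector with coordinates in `Ω` -/
def cup {ι : Type} (Ω : Type) [Field Ω] [Algebra ℂ Ω] (y : ι → ℂ) : ι → Ω :=
  fun k => algebraMap ℂ Ω (y k)

/-- extension of scalars of a complex subspace -/
def bc {ι : Type} (Ω : Type) [Field Ω] [Algebra ℂ Ω] (T : Submodule ℂ (ι → ℂ)) :
    Submodule Ω (ι → Ω) :=
  Submodule.span Ω (cup Ω '' (T : Set (ι → ℂ)))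

/-- `x` is a generic point of a subvariety of an exceptional flat: every complex point satisfying the
complex affine relations of `x` lies on the flat -/
def InExc {d : ℕ} {Ω : Type} [Field Ω] [Algebra ℂ Ω] (G : MvPolynomial (Fin d) (LL d))
    (x : Ix d → Ω) : Prop :=
  ∃ Φ ∈ Exc G, ∀ y : Pt d, (∀ (w : Ix d → ℂ) (c : ℂ),
    ∑ k, algebraMap ℂ Ω (w k) * x k = algebraMap ℂ Ω c → ∑ k, w k * y k = c) → y ∈ Φ

/-- the coordinates of `x` have linear growth with respect to the projection -/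
def LinGrow {d : ℕ} {Ω : Type} [Field Ω] [Algebra (LL d) Ω] (x : Ix d → Ω) : Prop :=
  ∀ O : ValuationSubring Ω, (∀ l : LL d, algebraMap (LL d) Ω l ∈ O) → ∀ γ : O.ValueGroup, 1 ≤ γ →
    (∀ i, O.valuation (prj (So d Ω) x i) ≤ γ) → ∀ k, O.valuation (x k) ≤ γ

end Crest.Agent.R65.KL
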