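import Crest.Agent.R65.KL.Der

/-! Row 65, key lemma: derivations and algebraic dependence. -/

set_option autoImplicit false

namespace Crest.Agent.R65.KL

/-- chain rule -/
theorem der_aeval {k Ω ι : Type} [Field k] [Field Ω] [Algebra k Ω] [Fintype ι]
    (D : Derivation k Ω Ω) (x : ι → Ω) (G : MvPolynomial ι k) :
    D (MvPolynomial.aeval x G) = ∑ i, MvPolynomial.aeval x (MvPolynomial.pderiv i G) * D (x i) := by
  classical
  induction G using MvPolynomial.induction_on with
  | C a => simp
  | add p q hp hq => simp only [map_add, hp, hq, add_mul, Finset.sum_add_distrib]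
  | mul_X p j hp =>
    rw [map_mul, D.leibniz, hp, MvPolynomial.aeval_X]
    simp only [MvPolynomial.pderiv_mul, map_add, map_mul, MvPolynomial.aeval_X, add_mul,
      Finset.sum_add_distrib, smul_eq_mul, Finset.mul_sum]
    rw [add_comm]
    congr 1
    · exact Finset.sum_congr rfl fun i _ => by ring
    · rw [Finset.sum_eq_single j]
      · rw [MvPolynomial.pderiv_X_self, map_one, mul_one]
      · intro i _ hi
        rw [MvPolynomial.pderiv_X_of_ne (Ne.symm hi), map_zero, mul_zero, zero_mul]
      · intro hj
        exact absurd (Finset.mem_univ j) hj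

/-- A derivation killing `s` kills everything algebraic over `k[s]` (relation of minimal degree,
compare `R278.deriv_eq_zero`). -/
theorem der_zero_of_alg {k Ω : Type} [Field k] [CharZero k] [Field Ω] [Algebra k Ω]
    (D : Derivation k Ω Ω) (s : Set Ω) (hs : ∀ y ∈ s, D y = 0) {z : Ω}
    (hz : IsAlgebraic (Algebra.adjoin k s) z) : D z = 0 := by
  have : CharZero Ω := charZero_of_injective_algebraMap (algebraMap k Ω).injective
  have h1 : ∀ r : Algebra.adjoin k s, D (algebraMap _ Ω r) = 0 := by
    rintro ⟨r, hr⟩
    change D r = 0
    induction hr using Algebra.adjoin_induction with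
    | mem y hy => exact hs y hy
    | algebraMap a => exact D.map_algebraMap a
    | add p q _ _ hp hq => rw [map_add, hp, hq, add_zero]
    | mul p q _ _ hp hq => rw [D.leibniz, hp, hq, smul_zero, smul_zero, add_zero]
  have h2 : ∀ p : Polynomial (Algebra.adjoin k s),
      D (Polynomial.aeval z p) = Polynomial.aeval z (Polynomial.derivative p) * D z := fun p => by
    induction p using Polynomial.induction_on' with
    | add p q hp hq => rw [map_add, map_add, hp, hq, map_add, map_add, add_mul]
    | monomial n a =>
      rw [Polynomial.derivative_monomial, Polynomial.aeval_monomial, Polynomial.aeval_monomial,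
        D.leibniz, h1, smul_zero, add_zero, D.leibniz_pow, map_mul, map_natCast, smul_eq_mul,
        smul_eq_mul, nsmul_eq_mul]
      ring
  obtain ⟨p, hp0, hp⟩ := hz
  induction hn : p.natDegree using Nat.strong_induction_on generalizing p with
  | _ n ih =>
    by_cases h0 : p.natDegree = 0
    · exfalso
      rw [Polynomial.eq_C_of_natDegree_eq_zero h0] at hp hp0
      rw [Polynomial.aeval_C, FaithfulSMul.algebraMap_eq_zero_iff] at hp
      exact hp0 (by rw [hp, map_zero])
    by_cases h3 : Polynomial.aeval z (Polynomial.derivative p) = 0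
    · refine ih _ (hn ▸ Polynomial.natDegree_derivative_lt h0) (Polynomial.derivative p)
        (fun h4 => h0 ?_) h3 rfl
      exact Polynomial.derivative_eq_zero.1 h4
    · have := h2 p
      rw [hp, map_zero, eq_comm, mul_eq_zero] at this
      exact this.resolve_left h3

/-- common constants of all derivations are algebraic (`der_prescribe` with `ι = Unit`) -/
theorem alg_of_der {k Ω : Type} [Field k] [CharZero k] [Field Ω] [Algebra k Ω] {z : Ω}
    (h : ∀ D : Derivation k Ω Ω, D z = 0) : IsAlgebraic k z := by
  by_contra hz
  have hx : AlgebraicIndependent k (fun _ : Unit => z) :=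
    algebraicIndependent_unique_type_iff.2 hz
  obtain ⟨D, hD⟩ := der_prescribe hx fun _ => 1
  exact one_ne_zero ((hD ()).symm.trans (h D))

theorem const_of_der {Ω : Type} [Field Ω] [Algebra ℂ Ω] {z : Ω}
    (h : ∀ D : Derivation ℂ Ω Ω, D z = 0) : ∃ c : ℂ, z = algebraMap ℂ Ω c := by
  have hz := (alg_of_der h).isIntegral
  have h1 := IsAlgClosed.degree_eq_one_of_irreducible ℂ (minpoly.irreducible hz)
  obtain ⟨c, hc⟩ := minpoly.degree_eq_one_iff.1 h1
  exact ⟨c, hc.symm⟩

/-- Dual derivations give algebraic independence: a relation `G ≠ 0` of minimal total degree has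
`∂_i G (x) = D_i (G x) = 0`, so all `∂_i G = 0` and `G` is constant. -/
theorem indep_of_der {k Ω ι : Type} [Field k] [CharZero k] [Field Ω] [Algebra k Ω] [Fintype ι]
    [DecidableEq ι] (x : ι → Ω) (D : ι → Derivation k Ω Ω)
    (h : ∀ i j, D i (x j) = if i = j then 1 else 0) : AlgebraicIndependent k x := by
  have key : ∀ (n : ℕ) (G : MvPolynomial ι k), (∀ m ∈ G.support, m.degree < n) →
      MvPolynomial.aeval x G = 0 → G = 0 := by
    intro n
    induction n with
    | zero =>
      intro G hG _
      exact MvPolynomial.support_eq_empty.1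
        (Finset.eq_empty_of_forall_notMem fun m hm => Nat.not_lt_zero _ (hG m hm))
    | succ n ih =>
      intro G hG h0
      have h1 : ∀ i, MvPolynomial.pderiv i G = 0 := by
        intro i
        refine ih _ (fun m hm => ?_) ?_
        · rw [MvPolynomial.mem_support_iff, MvPolynomial.coeff_pderiv] at hm
          have := hG _ (MvPolynomial.mem_support_iff.2 (left_ne_zero_of_mul hm))
          rw [map_add, Finsupp.degree_single] at this
          omega
        · have := der_aeval (D i) x G
          simp only [h0, map_zero, h, mul_ite, mul_one, mul_zero, Finset.sum_ite_eq,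
            Finset.mem_univ, if_true] at this
          exact this.symm
      have h2 : G = MvPolynomial.C (MvPolynomial.coeff 0 G) := by
        ext m
        rw [MvPolynomial.coeff_C]
        split_ifs with hm
        · rw [hm]
        · obtain ⟨i, hi⟩ : ∃ i, m i ≠ 0 := by
            by_contra hc
            exact hm (Finsupp.ext fun i => by
              by_contra hi
              exact hc ⟨i, fun h' => hi (by rw [h']; rfl)⟩)
          have h3 := MvPolynomial.coeff_pderiv (i := i) G (m - Finsupp.single i 1)
          rw [h1, MvPolynomial.coeff_zero, tsub_add_cancel_of_le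
            (Finsupp.single_le_iff.2 (Nat.one_le_iff_ne_zero.2 hi)), eq_comm, mul_eq_zero] at h3
          exact h3.resolve_right (Nat.cast_add_one_ne_zero _)
      rw [h2, MvPolynomial.aeval_C, FaithfulSMul.algebraMap_eq_zero_iff] at h0
      rw [h2, h0, map_zero]
  refine algebraicIndependent_iff.2 fun G hG => key (G.totalDegree + 1) G (fun m hm => ?_) hG
  exact Nat.lt_succ_of_le (MvPolynomial.le_totalDegree hm)

end Crest.Agent.R65.KL
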