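import Crest.Agent.R65.KL.Defs
import Crest.Agent.R65.KL.Der2

/-! Row 65, key lemma: the generic skew matrix. -/

set_option autoImplicit false

open Finset

namespace Crest.Agent.R65.KL

open Mn

variable {d : ℕ} {Ω : Type} [Field Ω] [Algebra ℂ Ω] [Algebra (LL d) Ω] [IsScalarTower ℂ (LL d) Ω]

theorem gen_sk_skew {R : Type} [CommRing R] (θ : SI d → R) (i j : Fin d) :
    sk θ j i = -sk θ i j := by
  unfold sk
  by_cases h1 : i < j
  · rw [dif_neg (not_lt.2 h1.le), dif_pos h1, dif_pos h1]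
  · by_cases h2 : j < i
    · rw [dif_pos h2, dif_neg h1, dif_pos h2, neg_neg]
    · rw [dif_neg h2, dif_neg h1, dif_neg h1, dif_neg h2, neg_zero]

theorem gen_sum_apply {k K κ : Type} [Field k] [Field K] [Algebra k K] (s : Finset κ)
    (D : κ → Derivation k K K) (y : K) : (∑ i ∈ s, D i) y = ∑ i ∈ s, D i y := by
  classical
  induction s using Finset.induction_on with
  | empty => simp
  | insert j s hj ih => simp [sum_insert hj, ih]

omit [Algebra ℂ Ω] [IsScalarTower ℂ (LL d) Ω] in
theorem So_skew (i j : Fin d) : So d Ω j i = -So d Ω i j := by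
  unfold So SS
  rw [gen_sk_skew, map_neg]

theorem So_self : So d (LL d) = SS d := by
  rfl

/-- The entries `So d Ω i j`, `i < j`, are algebraically independent over `ℂ`; `der_prescribe` with
the values `Eu Ω i j k l`, `k < l`. -/
theorem exists_gen : ∃ D : Fin d → Fin d → Derivation ℂ Ω Ω, Gen (So d Ω) D := by
  let x : SI d → Ω := fun p => algebraMap (LL d) Ω
    (algebraMap (MvPolynomial (SI d) ℂ) (LL d) (MvPolynomial.X p))
  have hx : AlgebraicIndependent ℂ x := by
    have e : (MvPolynomial.aeval x : MvPolynomial (SI d) ℂ →ₐ[ℂ] Ω) =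
        (IsScalarTower.toAlgHom ℂ (LL d) Ω).comp
          (IsScalarTower.toAlgHom ℂ (MvPolynomial (SI d) ℂ) (LL d)) := by
      ext p
      simp [x]
    show Function.Injective (MvPolynomial.aeval x : MvPolynomial (SI d) ℂ →ₐ[ℂ] Ω)
    rw [e]
    exact (algebraMap (LL d) Ω).injective.comp
      (IsFractionRing.injective (MvPolynomial (SI d) ℂ) (LL d))
  choose D hD using fun i j : Fin d => der_prescribe hx fun p => Eu Ω i j p.1.1 p.1.2
  refine ⟨D, So_skew, fun i j k l => ?_⟩
  unfold So SS sk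
  split_ifs with h1 h2
  · exact hD i j ⟨(k, l), h1⟩
  · rw [map_neg, map_neg]
    have := hD i j ⟨(l, k), h2⟩
    simp only [x] at this
    rw [this]
    simp only [Eu, neg_sub, and_comm]
  · obtain rfl : k = l := le_antisymm (not_lt.1 h2) (not_lt.1 h1)
    simp only [Eu, map_zero, and_comm, sub_self]

/-- the derivations of `LL d` itself -/
theorem exists_gen_LL : ∃ D : Fin d → Fin d → Derivation ℂ (LL d) (LL d), Gen (SS d) D := by
  have h := exists_gen (d := d) (Ω := LL d)
  rwa [So_self] at h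

/-- A `ℂ`-derivation killing `S` kills `LL d` (polynomials in `S` by induction, then quotients), so it
is an `LL d`-derivation. -/
theorem toL (Θ : Derivation ℂ Ω Ω) (h : ∀ i j, Θ (So d Ω i j) = 0) :
    ∃ Θ' : Derivation (LL d) Ω Ω, ∀ z, Θ' z = Θ z := by
  have h1 : ∀ p : MvPolynomial (SI d) ℂ,
      Θ (algebraMap (LL d) Ω (algebraMap (MvPolynomial (SI d) ℂ) (LL d) p)) = 0 := by
    intro p
    induction p using MvPolynomial.induction_on with
    | C c =>
      have e : algebraMap (LL d) Ω (algebraMap (MvPolynomial (SI d) ℂ) (LL d)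
          (MvPolynomial.C c)) = algebraMap ℂ Ω c := by
        rw [← MvPolynomial.algebraMap_eq, ← IsScalarTower.algebraMap_apply ℂ _ (LL d),
          ← IsScalarTower.algebraMap_apply]
      rw [e, Derivation.map_algebraMap]
    | add p q hp hq => rw [map_add, map_add, map_add, hp, hq, add_zero]
    | mul_X p n hp =>
      have e := h n.1.1 n.1.2
      unfold So SS sk at e
      rw [dif_pos n.2] at e
      rw [map_mul, map_mul, Derivation.leibniz, hp, e, smul_zero, smul_zero, add_zero]
  have h2 : ∀ l : LL d, Θ (algebraMap (LL d) Ω l) = 0 := by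
    intro l
    obtain ⟨a, b, -, rfl⟩ := IsFractionRing.div_surjective (A := MvPolynomial (SI d) ℂ) l
    rw [map_div₀, Derivation.leibniz_div, h1, h1, smul_zero, smul_zero, sub_zero, smul_zero]
  let L : Ω →ₗ[LL d] Ω :=
    { toFun := Θ
      map_add' := map_add Θ
      map_smul' := fun l z => by
        rw [Algebra.smul_def, Derivation.leibniz, h2, smul_zero, add_zero, RingHom.id_apply,
          Algebra.smul_def l, smul_eq_mul] }
  exact ⟨Derivation.mk' L fun a b => Θ.leibniz a b, fun _ => rfl⟩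

/-- Correction `Θ - ∑_{k < l} Θ (S k l) • D k l` (or half the sum over all `k, l`). -/
theorem corr {S : Fin d → Fin d → Ω} {D : Fin d → Fin d → Derivation ℂ Ω Ω} (hG : Gen S D)
    {ι : Type} {x : ι → Ω} (hx : ∀ i j k, D i j (x k) = 0) (Θ : Derivation ℂ Ω Ω) :
    ∃ Θ' : Derivation ℂ Ω Ω, (∀ i j, Θ' (S i j) = 0) ∧ ∀ k, Θ' (x k) = Θ (x k) := by
  have : CharZero Ω := charZero_of_injective_algebraMap (algebraMap ℂ Ω).injective
  refine ⟨Θ - ∑ k, ∑ l, (Θ (S k l) / 2) • D k l, fun i j => ?_, fun k => ?_⟩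
  · simp only [Derivation.sub_apply, gen_sum_apply, Derivation.smul_apply, hG.der, Eu,
      smul_eq_mul, mul_sub, sum_sub_distrib, mul_ite, mul_one, mul_zero]
    have e1 : ∑ k, ∑ l, (if i = k ∧ j = l then Θ (S k l) / 2 else 0) = Θ (S i j) / 2 := by
      simp [ite_and]
    have e2 : ∑ k, ∑ l, (if i = l ∧ j = k then Θ (S k l) / 2 else 0) = Θ (S j i) / 2 := by
      rw [sum_comm]
      simp [ite_and]
    rw [e1, e2, hG.skew i j, map_neg]
    ring
  · simp only [Derivation.sub_apply, gen_sum_apply, Derivation.smul_apply, hx, smul_zero,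
      sum_const_zero, sub_zero]

/-- every tangent vector comes from an `LL d`-derivation -/
theorem tan_L {D : Fin d → Fin d → Derivation ℂ Ω Ω} (hG : Gen (So d Ω) D) {ι : Type} {x : ι → Ω}
    (hx : ∀ i j k, D i j (x k) = 0) {t : ι → Ω} (ht : t ∈ Tan x) :
    ∃ Θ : Derivation (LL d) Ω Ω, ∀ k, Θ (x k) = t k := by
  obtain ⟨Θ, rfl⟩ := ht
  obtain ⟨Θ₁, h1, h2⟩ := corr hG hx Θ
  obtain ⟨Θ₂, h3⟩ := toL Θ₁ h1
  exact ⟨Θ₂, fun k => (h3 _).trans (h2 k)⟩

end Crest.Agent.R65.KL
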