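import Crest.Agent.R65.KL.Val

/-! Row 65, key lemma: large dimension gives an exceptional flat. -/

set_option autoImplicit false

open Finset Module

namespace Crest.Agent.R65.KL

open Mn

variable {d : ℕ} {Ω : Type} [Field Ω] [Algebra ℂ Ω] [Algebra (LL d) Ω] [IsScalarTower ℂ (LL d) Ω]
  {D : Fin d → Fin d → Derivation ℂ Ω Ω} {x : Ix d → Ω} {G : MvPolynomial (Fin d) (LL d)}

/-- If `(Tan x).map (prjL S) = ⊤`, there are `LL d`-derivations (`tan_L`) dual to `z = prj S x`, against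
`indep_of_der`.  Otherwise `exists_normal`, `BB_nv`. -/
theorem exists_nv (hD : Gen (So d Ω) D) (hx : ∀ i j k, D i j (x k) = 0) (hG : G ≠ 0)
    (hz : MvPolynomial.aeval (prj (So d Ω) x) G = 0) :
    ∃ η : Fin d → Ω, η ≠ 0 ∧ nv (So d Ω) η ∈ perp (Tan x) := by
  by_cases hU : (Tan x).map (prjL (So d Ω)) = ⊤
  · have : CharZero (LL d) := algebraRat.charZero _
    have h : ∀ i : Fin d, ∃ Θ : Derivation (LL d) Ω Ω, ∀ j,
        Θ (prj (So d Ω) x j) = if i = j then 1 else 0 := fun i => by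
      obtain ⟨t, ht, e⟩ : (fun j => if i = j then (1 : Ω) else 0) ∈ (Tan x).map (prjL (So d Ω)) :=
        hU ▸ Submodule.mem_top
      obtain ⟨Θ, hΘ⟩ := tan_L hD hx ht
      refine ⟨Θ, fun j => (Eq.trans ?_ (congrFun e j))⟩
      simp [prj, So, hΘ]
    choose Θ hΘ using h
    exact absurd ((indep_of_der _ Θ hΘ).eq_zero_of_aeval_eq_zero G hz) hG
  · obtain ⟨η, h0, h⟩ := exists_normal _ hU
    exact ⟨η, h0, fun t ht => (BB_nv So_skew η t).trans (h _ ⟨t, ht, rfl⟩)⟩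

/-- `tr1`, `tr2` for `perp (Tan x)`, `finrank_perp`, `perp_eq_self`, `perp_perp`. -/
theorem tan_iso (hD : Gen (So d Ω) D) (hx : ∀ i j k, D i j (x k) = 0) (hG : G ≠ 0)
    (hz : MvPolynomial.aeval (prj (So d Ω) x) G = 0) (h : d ≤ finrank Ω (Tan x)) :
    finrank Ω (Tan x) = d ∧ ∀ s ∈ Tan x, ∀ t ∈ Tan x, BB s t = 0 := by
  obtain ⟨η, h0, hv⟩ := exists_nv hD hx hG hz
  have hT : ∀ i j, Stab (D i j) (perp (Tan x)) := fun i j => (stab_Tan x (hx i j)).perp
  have h1 := tr1 hD h0 hT hv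
  have h2 := finrank_perp (Tan x)
  have h3 := perp_eq_self (tr2 hD h0 hT hv (by omega)) (by omega)
  rw [perp_perp] at h3
  exact ⟨by omega, fun s hs t ht => (h3 ▸ ht : t ∈ perp (Tan x)) s hs⟩

omit [Algebra (LL d) Ω] [IsScalarTower ℂ (LL d) Ω] in
/-- For `w ∈ T₀` the element `BB (cup w) x` is killed by all derivations, so it is a complex number
`c w`, linear in `w`; `exists_BB` gives `x₀`, and `x - cup x₀ ∈ perp (bc T₀) = bc T₀`. -/
theorem exists_base {T₀ : Submodule ℂ (Ix d → ℂ)} (hT : bc Ω T₀ = Tan x)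
    (hd : finrank Ω (Tan x) = d) (h : ∀ s ∈ Tan x, ∀ t ∈ Tan x, BB s t = 0) :
    ∃ x₀ : Pt d, x - cup Ω x₀ ∈ bc Ω T₀ := by
  have h0 : ∀ y : Ix d → Ω, BB 0 y = 0 := fun y => by simp [BB]
  have h1 : ∀ w : T₀, ∃ c : ℂ, BB (cup Ω (w : Ix d → ℂ)) x = algebraMap ℂ Ω c := by
    intro w
    refine const_of_der fun Θ => ?_
    have e : (fun k => Θ (cup Ω (w : Ix d → ℂ) k)) = 0 := funext fun k => Θ.map_algebraMap _
    rw [der_BB, e, h0, zero_add]
    exact h _ (hT ▸ cup_mem_bc.2 w.2) _ (mem_Tan.2 ⟨Θ, rfl⟩)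
  choose c hc using h1
  let cl : T₀ →ₗ[ℂ] ℂ :=
    { toFun := c
      map_add' := fun u v => (algebraMap ℂ Ω).injective (by
        have e : cup Ω ((u + v : T₀) : Ix d → ℂ) = cup Ω (u : Ix d → ℂ) + cup Ω (v : Ix d → ℂ) :=
          funext fun k => map_add (algebraMap ℂ Ω) _ _
        rw [map_add, ← hc, ← hc, ← hc, e, BB_comm, BB_add_right, BB_comm x, BB_comm x])
      map_smul' := fun a u => (algebraMap ℂ Ω).injective (by
        have e : cup Ω ((a • u : T₀) : Ix d → ℂ) = algebraMap ℂ Ω a • cup Ω (u : Ix d → ℂ) :=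
          funext fun k => map_mul (algebraMap ℂ Ω) _ _
        rw [RingHom.id_apply, smul_eq_mul, map_mul, ← hc, ← hc, e, BB_comm, BB_smul_right,
          BB_comm x]) }
  obtain ⟨x₀, hx₀⟩ := exists_BB T₀ cl
  refine ⟨x₀, ?_⟩
  have h2 : perp (bc Ω T₀) = bc Ω T₀ := by
    rw [hT]
    exact perp_eq_self h hd
  rw [← h2, mem_perp]
  intro t ht
  induction ht using Submodule.span_induction with
  | mem _ hy =>
    obtain ⟨y, hy, rfl⟩ := hy
    have e : x - cup Ω x₀ = x + (-1 : Ω) • cup Ω x₀ := by rw [neg_one_smul, sub_eq_add_neg]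
    rw [e, BB_add_right, BB_smul_right, BB_cup, hc ⟨y, hy⟩, hx₀ ⟨y, hy⟩, neg_one_mul]
    exact add_neg_cancel _
  | zero => exact h0 _
  | add a b _ _ ha hb => rw [BB_comm, BB_add_right, BB_comm _ a, BB_comm _ b, ha, hb, add_zero]
  | smul a b _ hb => rw [BB_comm, BB_smul_right, BB_comm _ b, hb, mul_zero]

theorem base_pz (y : Pt d) (i : Fin d) :
    algebraMap (LL d) Ω (pz y i) = prj (So d Ω) (cup Ω y) i := by
  simp only [pz, prj, up, cup, So, map_add, map_sum, map_mul, ← IsScalarTower.algebraMap_apply]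

theorem base_key {m : ℕ} (x₀ : Pt d) (b : Fin m → Pt d) (c : Fin m → Ω)
    (G : MvPolynomial (Fin d) (LL d)) :
    MvPolynomial.aeval c (MvPolynomial.aeval (fun i => MvPolynomial.C (pz x₀ i) +
      ∑ j, MvPolynomial.X j * MvPolynomial.C (pz (b j) i) :
        Fin d → MvPolynomial (Fin m) (LL d)) G) =
      MvPolynomial.aeval (prj (So d Ω) (cup Ω x₀ + ∑ j, c j • cup Ω (b j))) G := by
  rw [← AlgHom.comp_apply, MvPolynomial.comp_aeval]
  congr 2
  funext i
  rw [← prjL_apply, map_add, map_sum]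
  simp only [map_add, map_sum, map_mul, MvPolynomial.aeval_X, MvPolynomial.aeval_C, base_pz,
    map_smul, prjL_apply, Pi.add_apply, Finset.sum_apply, Pi.smul_apply, smul_eq_mul]

/-- Take a basis `w_i` of `T₀`, `x = x₀ + ∑ c_i w_i`; `LL d`-derivations with `Θ_i x = w_i` (`tan_L`) are
dual to the `c_i` (the `cup w_i` are independent over `Ω`), so `c` is independent over `LL d` and the
polynomial `G (pz x₀ + ∑ X_i pz w_i)` vanishes. -/
theorem van_of_base (hD : Gen (So d Ω) D) (hx : ∀ i j k, D i j (x k) = 0)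
    (hz : MvPolynomial.aeval (prj (So d Ω) x) G = 0) {T₀ : Submodule ℂ (Ix d → ℂ)}
    (hT : bc Ω T₀ = Tan x) {x₀ : Pt d} (h0 : x - cup Ω x₀ ∈ bc Ω T₀) :
    ∀ w ∈ T₀, MvPolynomial.eval (pz (x₀ + w)) G = 0 := by
  have : CharZero (LL d) := charZero_of_injective_algebraMap (algebraMap ℂ (LL d)).injective
  let b := Module.finBasis ℂ T₀
  have h1 : LinearIndependent ℂ fun i => (b i : Ix d → ℂ) :=
    b.linearIndependent.map' T₀.subtype (Submodule.ker_subtype T₀)
  have h2 : LinearIndependent Ω fun i => cup Ω (b i : Ix d → ℂ) :=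
    (linearIndependent_algebraMap_comp_iff (S := Ω)).2 h1
  have hrep : ∀ (K : Type) [Field K] [Algebra ℂ K] (w : T₀), cup K (w : Ix d → ℂ) =
      ∑ j, algebraMap ℂ K (b.repr w j) • cup K (b j : Ix d → ℂ) := by
    intro K _ _ w
    funext k
    have e := congrArg (fun u : T₀ => (u : Ix d → ℂ) k) (b.sum_repr w)
    simp only [Submodule.coe_sum, Submodule.coe_smul, Finset.sum_apply, Pi.smul_apply,
      smul_eq_mul] at e
    simp only [cup, Finset.sum_apply, Pi.smul_apply, smul_eq_mul, ← map_mul, ← map_sum, e]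
  have h3 : bc Ω T₀ ≤ Submodule.span Ω (Set.range fun i => cup Ω (b i : Ix d → ℂ)) := by
    refine Submodule.span_le.2 ?_
    rintro _ ⟨y, hy, rfl⟩
    rw [show cup Ω y = _ from hrep Ω ⟨y, hy⟩]
    exact Submodule.sum_mem _ fun j _ =>
      Submodule.smul_mem _ _ (Submodule.subset_span ⟨j, rfl⟩)
  obtain ⟨c, hc⟩ := (Submodule.mem_span_range_iff_exists_fun Ω).1 (h3 h0)
  have hxc : x = cup Ω x₀ + ∑ j, c j • cup Ω (b j : Ix d → ℂ) := by
    rw [hc, add_sub_cancel]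
  have h4 : ∀ i, ∃ Θ : Derivation (LL d) Ω Ω, ∀ k, Θ (x k) = cup Ω (b i : Ix d → ℂ) k := fun i =>
    tan_L hD hx (hT ▸ cup_mem_bc.2 (b i).2)
  choose Θ hΘ using h4
  have hk : ∀ i (y : Ix d → ℂ) k, Θ i (cup Ω y k) = 0 := fun i y k => by
    rw [cup, IsScalarTower.algebraMap_apply ℂ (LL d) Ω, Derivation.map_algebraMap]
  have h5 : ∀ i j, Θ i (c j) = if i = j then 1 else 0 := by
    intro i j
    have e : ∑ j, (Θ i (c j) - if i = j then 1 else 0) • cup Ω (b j : Ix d → ℂ) = 0 := by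
      funext k
      have e1 := hΘ i k
      rw [hxc] at e1
      simp only [Pi.add_apply, Finset.sum_apply, Pi.smul_apply, smul_eq_mul, map_add, map_sum,
        Derivation.leibniz, hk, mul_zero, zero_add] at e1
      simp only [Finset.sum_apply, Pi.smul_apply, smul_eq_mul, sub_mul, sum_sub_distrib, ite_mul,
        one_mul, zero_mul, sum_ite_eq, mem_univ, if_true, Pi.zero_apply]
      rw [← e1, sub_eq_zero]
      exact sum_congr rfl fun j _ => mul_comm _ _
    exact sub_eq_zero.1 (Fintype.linearIndependent_iff.1 h2 _ e j)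
  have h6 := base_key x₀ (fun j => (b j : Ix d → ℂ)) c G
  rw [← hxc, hz] at h6
  have h7 := (indep_of_der c Θ h5).eq_zero_of_aeval_eq_zero _ h6
  intro w hw
  have h8 := base_key (Ω := LL d) x₀ (fun j => (b j : Ix d → ℂ))
    (fun j => algebraMap ℂ (LL d) (b.repr ⟨w, hw⟩ j)) G
  rw [h7, map_zero, ← hrep (LL d) ⟨w, hw⟩, So_self, MvPolynomial.aeval_eq_eval] at h8
  have e : up (x₀ + w) = cup (LL d) x₀ + cup (LL d) w :=
    funext fun k => map_add (algebraMap ℂ (LL d)) _ _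
  rw [pz, e]
  exact h8.symm

/-- `Φ = AffineSubspace.mk' x₀ T₀`; the relations `BB w x = BB w x₀`, `w ∈ T₀`, cut out `Φ` because
`perp T₀ = T₀`. -/
theorem exc_case (hD : Gen (So d Ω) D) (hx : ∀ i j k, D i j (x k) = 0) (hG : G ≠ 0)
    (hz : MvPolynomial.aeval (prj (So d Ω) x) G = 0) (h : d ≤ finrank Ω (Tan x)) :
    InExc G x := by
  obtain ⟨h1, h2⟩ := tan_iso hD hx hG hz h
  obtain ⟨T₀, hT⟩ := desc (Tan x) (braid x h2 h1)
  obtain ⟨x₀, h0⟩ := exists_base hT h1 h2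
  have hc : ∀ w ∈ T₀, cup Ω w ∈ Tan x := fun w hw => hT ▸ cup_mem_bc.2 hw
  have hd : finrank ℂ T₀ = d := by rw [← finrank_bc (Ω := Ω), hT, h1]
  have iso : ∀ s ∈ T₀, ∀ t ∈ T₀, BB s t = 0 := fun s hs t ht =>
    (algebraMap ℂ Ω).injective (by rw [← BB_cup, h2 _ (hc s hs) _ (hc t ht), map_zero])
  refine ⟨AffineSubspace.mk' x₀ T₀, ⟨⟨⟨x₀, AffineSubspace.self_mem_mk' _ _⟩, ?_, ?_⟩, ?_⟩, ?_⟩
  · rw [AffineSubspace.direction_mk', hd]
  · rw [AffineSubspace.direction_mk']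
    intro v hv
    simpa [BB_self] using iso v hv v hv
  · intro y hy
    simpa using van_of_base hD hx hz hT h0 _ (AffineSubspace.mem_mk'.1 hy)
  · intro y hy
    rw [AffineSubspace.mem_mk', ← perp_eq_self iso hd]
    intro w hw
    have e1 : BB (cup Ω w) x = algebraMap ℂ Ω (BB w x₀) := by
      rw [← sub_add_cancel x (cup Ω x₀), BB_add_right, h2 _ (hc w hw) _ (hT ▸ h0), zero_add, BB_cup]
    have e2 := hy (w ∘ Sum.swap) (BB w x₀) (by
      rw [← e1]; simp [BB, cup, sum_add_distrib, add_comm])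
    have e3 : BB w y = BB w x₀ := by rw [← e2]; simp [BB, sum_add_distrib, add_comm]
    rwa [← sub_add_cancel y x₀, BB_add_right, add_eq_right] at e3

/-- THE RICH CASE OF THE KEY LEMMA. -/
theorem rich_case (x : Ix d → Ω) (G : MvPolynomial (Fin d) (LL d)) (hG : G ≠ 0)
    (hz : MvPolynomial.aeval (prj (So d Ω) x) G = 0)
    (hD : ∀ i j, ∃ D : Derivation ℂ Ω Ω, (∀ k l, D (So d Ω k l) = Eu Ω i j k l) ∧
      ∀ k, D (x k) = 0) :
    InExc G x ∨ LinGrow x := by
  choose D h1 h2 using hD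
  rcases le_or_gt d (finrank Ω (Tan x)) with h | h
  · exact Or.inl (exc_case ⟨So_skew, h1⟩ h2 hG hz h)
  · exact Or.inr (val_case x h)

end Crest.Agent.R65.KL
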