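import Crest.Agent.R180.Deriv

/-! Row 65, key lemma: existence of derivations in characteristic zero. -/

set_option autoImplicit false

namespace Crest.Agent.R65.KL

/-- Extension of derivations.  As in `R180.exists_derivation`: `Ω` is formally smooth over `R`
(`R → Frac R` localisation, `R180.formallySmooth_charZero`), so
`KaehlerDifferential.mapBaseChange k R Ω` is injective and has a left inverse `φ`; compose with the
`Ω`-linear map `Ω ⊗_R Ω[R/k] → Ω` induced by `d.liftKaehlerDifferential`. -/
theorem der_extend {k R Ω : Type} [Field k] [CharZero k] [CommRing R] [Field Ω] [Algebra k R]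
    [Algebra k Ω] [Algebra R Ω] [IsScalarTower k R Ω] [FaithfulSMul R Ω] (d : Derivation k R Ω) :
    ∃ D : Derivation k Ω Ω, ∀ r, D (algebraMap R Ω r) = d r := by
  have hi : Function.Injective (algebraMap R Ω) := FaithfulSMul.algebraMap_injective R Ω
  have : IsDomain R := hi.isDomain
  let := FractionRing.liftAlgebra R Ω
  have := FractionRing.isScalarTower_liftAlgebra R Ω
  have : CharZero (FractionRing R) :=
    charZero_of_injective_algebraMap (algebraMap k (FractionRing R)).injective
  have := R180.formallySmooth_charZero (FractionRing R) Ω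
  have : Algebra.FormallySmooth R (FractionRing R) := .of_isLocalization (nonZeroDivisors _)
  have : Algebra.FormallySmooth R Ω := .comp _ (FractionRing R) _
  have hinj : Function.Injective (KaehlerDifferential.mapBaseChange k R Ω) := by
    rw [injective_iff_map_eq_zero]
    intro a ha
    obtain ⟨y, rfl⟩ := (Algebra.H1Cotangent.exact_δ_mapBaseChange k R Ω a).1 ha
    rw [Subsingleton.elim y 0, map_zero]
  obtain ⟨φ, hφ⟩ := LinearMap.exists_leftInverse_of_injective _ (LinearMap.ker_eq_bot.2 hinj)
  let ψ := LinearMap.liftBaseChange Ω d.liftKaehlerDifferential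
  refine ⟨(ψ.comp φ).compDer (KaehlerDifferential.D k Ω), fun r => ?_⟩
  have e : KaehlerDifferential.D k Ω (algebraMap R Ω r) =
      KaehlerDifferential.mapBaseChange k R Ω (1 ⊗ₜ KaehlerDifferential.D k R r) := by
    simp only [KaehlerDifferential.mapBaseChange_tmul, one_smul, KaehlerDifferential.map_D]
  show ψ (φ (KaehlerDifferential.D k Ω (algebraMap R Ω r))) = d r
  rw [e, ← LinearMap.comp_apply φ, hφ, LinearMap.id_apply]
  simp [ψ]

/-- A derivation preserving the kernel of `φ` extends to the target field: `der_extend` for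
`R = A ⧸ ker φ`. -/
theorem der_of_ker {k A Ω : Type} [Field k] [CharZero k] [CommRing A] [Field Ω] [Algebra k A]
    [Algebra k Ω] (φ : A →ₐ[k] Ω) (d : A →+ A) (hd : ∀ a b, d (a * b) = a * d b + b * d a)
    (hk : ∀ c : k, d (algebraMap k A c) = 0) (h : ∀ a, φ a = 0 → φ (d a) = 0) :
    ∃ D : Derivation k Ω Ω, ∀ a, D (φ a) = φ (d a) := by
  have hs : Function.Surjective φ.rangeRestrict := φ.rangeRestrict_surjective
  let δ : φ.range → Ω := fun r => φ (d (Function.surjInv hs r))
  have hδ : ∀ a, δ (φ.rangeRestrict a) = φ (d a) := by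
    intro a
    have e : φ (Function.surjInv hs (φ.rangeRestrict a)) = φ a :=
      congrArg Subtype.val (Function.surjInv_eq hs (φ.rangeRestrict a))
    have := h (Function.surjInv hs (φ.rangeRestrict a) - a) (by rw [map_sub, e, sub_self])
    rw [map_sub, map_sub, sub_eq_zero] at this
    exact this
  let δl : φ.range →ₗ[k] Ω :=
    { toFun := δ
      map_add' := fun r s => by
        obtain ⟨a, rfl⟩ := hs r
        obtain ⟨b, rfl⟩ := hs s
        rw [← map_add, hδ, hδ, hδ, map_add, map_add]
      map_smul' := fun c r => by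
        obtain ⟨a, rfl⟩ := hs r
        rw [← map_smul, hδ, hδ, Algebra.smul_def, hd, hk, mul_zero, add_zero, map_mul,
          AlgHom.commutes, RingHom.id_apply, Algebra.smul_def] }
  let δd : Derivation k φ.range Ω := Derivation.mk' δl fun r s => by
    obtain ⟨a, rfl⟩ := hs r
    obtain ⟨b, rfl⟩ := hs s
    show δ _ = φ a * δ _ + φ b * δ _
    rw [← map_mul, hδ, hδ, hδ, hd, map_add, map_mul, map_mul]
  obtain ⟨D, hD⟩ := der_extend δd
  exact ⟨D, fun a => (hD (φ.rangeRestrict a)).trans (hδ a)⟩

/-- prescribed values on algebraically independent elements: `der_extend` for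
`R = MvPolynomial ι k` and `MvPolynomial.mkDerivation` -/
theorem der_prescribe {k Ω ι : Type} [Field k] [CharZero k] [Field Ω] [Algebra k Ω] {x : ι → Ω}
    (hx : AlgebraicIndependent k x) (v : ι → Ω) :
    ∃ D : Derivation k Ω Ω, ∀ i, D (x i) = v i := by
  let : Algebra (MvPolynomial ι k) Ω := (MvPolynomial.aeval x).toRingHom.toAlgebra
  have : IsScalarTower k (MvPolynomial ι k) Ω := IsScalarTower.of_algebraMap_eq fun q =>
    ((MvPolynomial.aeval x).commutes q).symm
  have : FaithfulSMul (MvPolynomial ι k) Ω :=
    (faithfulSMul_iff_algebraMap_injective _ _).2 hx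
  obtain ⟨D, hD⟩ := der_extend (MvPolynomial.mkDerivation k v : Derivation k (MvPolynomial ι k) Ω)
  refine ⟨D, fun i => ?_⟩
  have := hD (MvPolynomial.X i)
  rw [MvPolynomial.mkDerivation_X] at this
  rw [← this]
  congr 1
  exact (MvPolynomial.aeval_X x i).symm

end Crest.Agent.R65.KL
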