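import Crest.Agent.R65.KL.TR
import Crest.Agent.R65.KL.Gen

/-! Row 65, key lemma: the number of exceptional flats. -/

set_option autoImplicit false

open Finset Module MvPolynomial

namespace Crest.Agent.R65.KL

open Mn

/-- the affine form `η · z - c` -/
noncomputable def lf {d : ℕ} {K : Type} [Field K] (η : Fin d → K) (c : K) : MvPolynomial (Fin d) K :=
  ∑ i, C (η i) * X i - C c

theorem flatA_eval_aeval {K σ τ : Type} [Field K] (v : τ → K) (g : σ → MvPolynomial τ K)
    (f : MvPolynomial σ K) : eval v (aeval g f) = eval (fun k => eval v (g k)) f := by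
  induction f using MvPolynomial.induction_on with
  | C a => simp
  | add p q hp hq => simp only [map_add, hp, hq]
  | mul_X p i hp => simp only [map_mul, hp, aeval_X, eval_X]

theorem flatA_dvd_sub {K σ : Type} [Field K] (p : MvPolynomial σ K) (g : σ → MvPolynomial σ K)
    (h : ∀ i, p ∣ X i - g i) (f : MvPolynomial σ K) : p ∣ f - aeval g f := by
  induction f using MvPolynomial.induction_on with
  | C a => simp
  | add f₁ f₂ h1 h2 =>
    rw [map_add, add_sub_add_comm]
    exact dvd_add h1 h2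
  | mul_X f i hf =>
    have e : f * X i - aeval g (f * X i) = (f - aeval g f) * X i + aeval g f * (X i - g i) := by
      rw [map_mul, aeval_X]; ring
    rw [e]
    exact dvd_add (hf.mul_right _) ((h i).mul_left _)

theorem flatA_eval_lf {d : ℕ} {K : Type} [Field K] (η : Fin d → K) (c : K) (z : Fin d → K) :
    eval z (lf η c) = ∑ i, η i * z i - c := by
  simp [lf]

theorem flatA_coeff {d : ℕ} {K : Type} [Field K] (η : Fin d → K) (c : K) (i : Fin d) :
    coeff (Finsupp.single i 1) (lf η c) = η i := by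
  classical
  have h0 : (0 : Fin d →₀ ℕ) ≠ Finsupp.single i 1 := (Finsupp.single_ne_zero.2 one_ne_zero).symm
  simp [lf, coeff_sum, coeff_X, Finsupp.single_left_inj, h0]

theorem flatA_deg {d : ℕ} {K : Type} [Field K] {η : Fin d → K} (hη : η ≠ 0) (c : K) :
    (lf η c).totalDegree = 1 := by
  apply le_antisymm
  · refine (totalDegree_sub _ _).trans (max_le (totalDegree_finsetSum_le fun i _ => ?_) (by simp))
    exact (totalDegree_mul _ _).trans (by simp)
  · obtain ⟨i, hi⟩ := Function.ne_iff.1 hη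
    have h1 : Finsupp.single i 1 ∈ (lf η c).support := by
      rw [MvPolynomial.mem_support_iff, flatA_coeff]; exact hi
    simpa using le_totalDegree h1

theorem flatA_ne {d : ℕ} {K : Type} [Field K] {η : Fin d → K} (hη : η ≠ 0) (c : K) :
    lf η c ≠ 0 := fun h => by simpa [h] using flatA_deg hη c

theorem flatA_prime {d : ℕ} {K : Type} [Field K] {η : Fin d → K} (hη : η ≠ 0) (c : K) :
    Prime (lf η c) := by
  refine (irreducible_of_totalDegree_eq_one (flatA_deg hη c) fun x hx => ?_).prime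
  obtain ⟨i, hi⟩ := Function.ne_iff.1 hη
  refine IsUnit.mk0 x fun h0 => hi ?_
  have := hx (Finsupp.single i 1)
  rwa [flatA_coeff, h0, zero_dvd_iff] at this

theorem flatA_assoc {d : ℕ} {K : Type} [Field K] {η η' : Fin d → K} (hη : η ≠ 0) (hη' : η' ≠ 0)
    {c c' : K} (h : lf η c ∣ lf η' c') : ∃ u : K, η' = u • η ∧ c' = u * c := by
  obtain ⟨g, hg⟩ := h
  have hg0 : g ≠ 0 := fun h0 => flatA_ne hη' c' (by rw [hg, h0, mul_zero])
  have h1 := flatA_deg hη' c'
  rw [hg, totalDegree_mul_of_isDomain (flatA_ne hη c) hg0, flatA_deg hη] at h1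
  have h2 : g = C (coeff 0 g) := totalDegree_eq_zero_iff_eq_C.1 (by omega)
  rw [h2, mul_comm] at hg
  refine ⟨coeff 0 g, funext fun i => ?_, ?_⟩
  · have := congrArg (coeff (Finsupp.single i 1)) hg
    rwa [coeff_C_mul, flatA_coeff, flatA_coeff] at this
  · have := congrArg (eval 0) hg
    rw [map_mul, eval_C, flatA_eval_lf, flatA_eval_lf] at this
    simpa using this

/-- If `η j ≠ 0` substitute `X j ↦ X j - lf η c / η j`: the result `F'` is `≡ F mod lf η c` and vanishes
everywhere (`MvPolynomial.funext`). -/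
theorem lf_dvd {d : ℕ} {K : Type} [Field K] [Infinite K] {η : Fin d → K} (hη : η ≠ 0) (c : K)
    {F : MvPolynomial (Fin d) K} (h : ∀ z : Fin d → K, ∑ i, η i * z i = c → eval z F = 0) :
    lf η c ∣ F := by
  classical
  obtain ⟨j, hj⟩ := Function.ne_iff.1 hη
  have hj' : η j ≠ 0 := hj
  have h1 := flatA_dvd_sub (lf η c)
    (fun i => X i - if i = j then C (η j)⁻¹ * lf η c else 0) (fun i => by
      rw [sub_sub_cancel]
      split_ifs
      · exact dvd_mul_left _ _
      · exact dvd_zero _) F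
  have h2 : aeval (fun i => X i - if i = j then C (η j)⁻¹ * lf η c else 0 :
      Fin d → MvPolynomial (Fin d) K) F = 0 := by
    refine MvPolynomial.funext fun z => ?_
    rw [flatA_eval_aeval, map_zero]
    refine h _ ?_
    simp only [map_sub, eval_X, apply_ite (eval z), map_mul, eval_C, map_zero, flatA_eval_lf,
      mul_sub, sum_sub_distrib, mul_ite, mul_zero, sum_ite_eq', mem_univ, if_true,
      mul_inv_cancel_left₀ hj']
    ring
  rwa [h2, sub_zero] at h1

/-- `lf η c` has total degree one, so it is irreducible, hence prime; pairwise non-associated primes: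
the product divides `F` (`Finset.prod_primes_dvd`), `totalDegree_mul_of_isDomain`. -/
theorem card_le_of_lf {d : ℕ} {K α : Type} [Field K] (s : Finset α) (η : α → Fin d → K) (c : α → K)
    (hη : ∀ a ∈ s, η a ≠ 0)
    (hne : ∀ a ∈ s, ∀ b ∈ s, ∀ u : K, η b = u • η a → c b = u * c a → a = b)
    {F : MvPolynomial (Fin d) K} (hF : F ≠ 0) (h : ∀ a ∈ s, lf (η a) (c a) ∣ F) :
    s.card ≤ F.totalDegree := by
  classical
  induction s using Finset.induction_on generalizing F with
  | empty => simp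
  | insert a s ha ih =>
    obtain ⟨G, rfl⟩ := h a (mem_insert_self _ _)
    have hG : G ≠ 0 := right_ne_zero_of_mul hF
    have ha' := hη a (mem_insert_self _ _)
    have h1 := ih (fun b hb => hη b (mem_insert_of_mem hb))
      (fun b hb b' hb' => hne b (mem_insert_of_mem hb) b' (mem_insert_of_mem hb')) hG
      fun b hb => by
        have hb' := hη b (mem_insert_of_mem hb)
        refine ((flatA_prime hb' (c b)).dvd_or_dvd (h b (mem_insert_of_mem hb))).resolve_left
          fun hd => ha ?_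
        obtain ⟨u, h1, h2⟩ := flatA_assoc hb' ha' hd
        rwa [← hne b (mem_insert_of_mem hb) a (mem_insert_self _ _) u h1 h2]
    rw [card_insert_of_notMem ha, totalDegree_mul_of_isDomain (flatA_ne ha' _) hG, flatA_deg ha']
    omega

/-- A polynomial vanishing on the projection of the complex points of `x₀ + T` vanishes on the
projection of the `LL d`-points: with a spanning family `w_i` of `T`, the polynomial
`F (pz x₀ + ∑ X_i pz w_i)` vanishes on a product of infinite sets (`MvPolynomial.funext_set`). -/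
theorem van_bc {d : ℕ} {F : MvPolynomial (Fin d) (LL d)} {T : Submodule ℂ (Pt d)} {x₀ : Pt d}
    (h : ∀ w ∈ T, eval (pz (x₀ + w)) F = 0) :
    ∀ t ∈ bc (LL d) T, eval (pz x₀ + prj (SS d) t) F = 0 := by
  let b := Module.finBasis ℂ T
  let g : Fin d → MvPolynomial (Fin (finrank ℂ T)) (LL d) :=
    fun i => C (pz x₀ i) + ∑ k, X k * C (pz (b k : Pt d) i)
  have hg : ∀ a : Fin (finrank ℂ T) → LL d, eval a (aeval g F) =
      eval (pz x₀ + prj (SS d) (∑ k, a k • cup (LL d) (b k : Pt d))) F := by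
    intro a
    rw [flatA_eval_aeval, ← prjL_apply, map_sum]
    congr 2
    funext i
    simp only [g, map_add, map_sum, map_mul, eval_C, eval_X, Pi.add_apply, Finset.sum_apply,
      map_smul, Pi.smul_apply, smul_eq_mul, prjL_apply]
    rfl
  have hc : ∀ a : Fin (finrank ℂ T) → ℂ, cup (LL d) (∑ k, a k • (b k : Pt d)) =
      ∑ k, algebraMap ℂ (LL d) (a k) • cup (LL d) (b k : Pt d) := by
    intro a
    funext i
    simp only [cup, Finset.sum_apply, Pi.smul_apply, smul_eq_mul, map_sum, map_mul]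
  have h0 : aeval g F = 0 := by
    refine MvPolynomial.funext_set (fun _ => Set.range (algebraMap ℂ (LL d)))
      (fun _ => Set.infinite_range_of_injective (algebraMap ℂ (LL d)).injective) fun a ha => ?_
    choose a' ha' using fun k => ha k (Set.mem_univ k)
    have e : a = fun k => algebraMap ℂ (LL d) (a' k) := funext fun k => (ha' k).symm
    have h1 := h (∑ k, a' k • (b k : Pt d)) (T.sum_mem fun k _ => T.smul_mem _ (b k).2)
    have h2 : pz (x₀ + ∑ k, a' k • (b k : Pt d)) =
        pz x₀ + prj (SS d) (cup (LL d) (∑ k, a' k • (b k : Pt d))) := by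
      have e' : up (x₀ + ∑ k, a' k • (b k : Pt d)) =
          up x₀ + cup (LL d) (∑ k, a' k • (b k : Pt d)) := by
        funext i
        simp only [up, cup, Pi.add_apply, map_add]
      rw [pz, e', ← prjL_apply, map_add]
      rfl
    rw [hg, map_zero, e, ← hc, ← h2, h1]
  intro t ht
  have h1 : bc (LL d) T ≤ Submodule.span (LL d) (Set.range fun k => cup (LL d) (b k : Pt d)) := by
    refine Submodule.span_le.2 ?_
    rintro _ ⟨w, hw, rfl⟩
    have e : w = ∑ k, b.repr ⟨w, hw⟩ k • (b k : Pt d) := by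
      have := congrArg T.subtype (b.sum_repr ⟨w, hw⟩)
      simp only [map_sum, map_smul] at this
      exact this.symm
    rw [e, hc]
    exact Submodule.sum_mem _ fun k _ => Submodule.smul_mem _ _ (Submodule.subset_span ⟨k, rfl⟩)
  obtain ⟨a, rfl⟩ := (Submodule.mem_span_range_iff_exists_fun (LL d)).1 (h1 ht)
  rw [← hg, h0, map_zero]

theorem flatB_perp {d : ℕ} {Φ : AffineSubspace ℂ (Pt d)} (hΦ : IsoFlat Φ) :
    finrank (LL d) (bc (LL d) Φ.direction) = d ∧
      perp (bc (LL d) Φ.direction) = bc (LL d) Φ.direction := by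
  have h1 : finrank (LL d) (bc (LL d) Φ.direction) = d := by rw [finrank_bc, hΦ.2.1]
  exact ⟨h1, perp_eq_self (bc_iso hΦ.2.2) h1⟩

theorem flatB_nv_smul {d : ℕ} {R : Type} [CommRing R] (S : Fin d → Fin d → R) (u : R)
    (η : Fin d → R) : nv S (u • η) = u • nv S η := by
  funext k
  rcases k with i | i
  · simp only [nv, Sum.elim_inl, Pi.smul_apply, smul_eq_mul, mul_neg, mul_sum]
    congr 1
    exact sum_congr rfl fun j _ => by ring
  · simp [nv]

/-- The image of `bc T` under `prjL` is not everything (`van_bc`, `F ≠ 0`); `exists_normal`, `BB_nv`,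
`perp_eq_self`; by `core` the image is the hyperplane `η ^ ⊥`; `lf_dvd`. -/
theorem exists_lf {d : ℕ} {F : MvPolynomial (Fin d) (LL d)} (hF : F ≠ 0)
    {Φ : AffineSubspace ℂ (Pt d)} (hΦ : Φ ∈ Exc F) {x₀ : Pt d} (h0 : x₀ ∈ Φ) :
    ∃ η : Fin d → LL d, η ≠ 0 ∧ nv (SS d) η ∈ bc (LL d) Φ.direction ∧
      lf η (∑ i, η i * pz x₀ i) ∣ F := by
  have : CharZero (LL d) := algebraRat.charZero _
  obtain ⟨D, hG⟩ := exists_gen_LL (d := d)
  have hv : ∀ z : Fin d → LL d, z - pz x₀ ∈ (bc (LL d) Φ.direction).map (prjL (SS d)) →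
      eval z F = 0 := by
    rintro z ⟨t, ht, e⟩
    have h1 := van_bc (F := F) (T := Φ.direction) (x₀ := x₀) (fun w hw => hΦ.2 _ (by
      have := AffineSubspace.vadd_mem_of_mem_direction hw h0
      rwa [vadd_eq_add, add_comm] at this)) t ht
    rw [prjL_apply] at e
    rwa [e, add_sub_cancel] at h1
  have hU : (bc (LL d) Φ.direction).map (prjL (SS d)) ≠ ⊤ := fun h =>
    hF (MvPolynomial.funext fun z => by
      rw [hv z (h ▸ Submodule.mem_top), map_zero])
  obtain ⟨η, hη, hn⟩ := exists_normal _ hU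
  have hm : nv (SS d) η ∈ bc (LL d) Φ.direction := by
    rw [← (flatB_perp hΦ.1).2, mem_perp]
    intro t ht
    rw [BB_nv hG.skew]
    exact hn _ ⟨t, ht, rfl⟩
  refine ⟨η, hη, hm, lf_dvd hη _ fun z hz => hv z ?_⟩
  refine core hG hη _ (fun i j => stab_bc (D i j) _ _ hm) _ ?_
  simp only [Pi.sub_apply, mul_sub, sum_sub_distrib, hz, sub_self]

/-- The space of `t ∈ bc T ⊓ bc T'` with `BB t (cup (x₀ - x₀')) = 0` is stable and contains `nv S η`, so
by `tr1` it equals `bc T` and `bc T'`; `cup_mem_bc`, `perp_eq_self`. -/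
theorem flat_eq {d : ℕ} {Φ Φ' : AffineSubspace ℂ (Pt d)} (hΦ : IsoFlat Φ) (hΦ' : IsoFlat Φ')
    {x₀ x₀' : Pt d} (h0 : x₀ ∈ Φ) (h0' : x₀' ∈ Φ') {η : Fin d → LL d} (hη : η ≠ 0)
    (hv : nv (SS d) η ∈ bc (LL d) Φ.direction) (hv' : nv (SS d) η ∈ bc (LL d) Φ'.direction)
    (hc : ∑ i, η i * pz x₀ i = ∑ i, η i * pz x₀' i) : Φ = Φ' := by
  obtain ⟨D, hG⟩ := exists_gen_LL (d := d)
  obtain ⟨r1, p1⟩ := flatB_perp hΦ
  obtain ⟨r2, -⟩ := flatB_perp hΦ'
  have hy : BB (cup (LL d) (x₀ - x₀')) (nv (SS d) η) = 0 := by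
    have e : cup (LL d) (x₀ - x₀') = up x₀ - up x₀' := by
      funext k
      simp [cup, up]
    rw [BB_nv hG.skew, e, ← prjL_apply, map_sub]
    simp only [Pi.sub_apply, mul_sub, sum_sub_distrib]
    exact sub_eq_zero.2 hc
  have hp : nv (SS d) η ∈ perp (bc (LL d) (Submodule.span ℂ {x₀ - x₀'})) := by
    intro t ht
    induction ht using Submodule.span_induction with
    | mem t ht =>
      obtain ⟨w, hw, rfl⟩ := ht
      obtain ⟨c, rfl⟩ := Submodule.mem_span_singleton.1 hw
      have e : cup (LL d) (c • (x₀ - x₀')) = algebraMap ℂ (LL d) c • cup (LL d) (x₀ - x₀') := by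
        funext k
        simp only [cup, Pi.smul_apply, smul_eq_mul, map_mul]
      rw [e, BB_comm, BB_smul_right, BB_comm, hy, mul_zero]
    | zero => simp [BB]
    | add s t _ _ hs ht => rw [BB_comm, BB_add_right, BB_comm, hs, BB_comm, ht, add_zero]
    | smul c t _ ht => rw [BB_comm, BB_smul_right, BB_comm, ht, mul_zero]
  set W := bc (LL d) Φ.direction ⊓ bc (LL d) Φ'.direction ⊓
    perp (bc (LL d) (Submodule.span ℂ {x₀ - x₀'})) with hW
  have hd : d ≤ finrank (LL d) W :=
    tr1 hG hη (fun i j t ht => ⟨⟨stab_bc (D i j) _ t ht.1.1, stab_bc (D i j) _ t ht.1.2⟩,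
      (stab_bc (D i j) _).perp t ht.2⟩) ⟨⟨hv, hv'⟩, hp⟩
  have e1 : W = bc (LL d) Φ.direction :=
    Submodule.eq_of_le_of_finrank_le (inf_le_left.trans inf_le_left) (r1.le.trans hd)
  have e2 : W = bc (LL d) Φ'.direction :=
    Submodule.eq_of_le_of_finrank_le (inf_le_left.trans inf_le_right) (r2.le.trans hd)
  have e3 : Φ.direction = Φ'.direction := by
    ext w
    rw [← cup_mem_bc (Ω := LL d), ← cup_mem_bc (Ω := LL d), ← e1, ← e2]
  have h3 : x₀ - x₀' ∈ Φ.direction := by
    rw [← cup_mem_bc (Ω := LL d), ← p1, mem_perp]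
    intro t ht
    rw [← e1] at ht
    rw [BB_comm]
    exact ht.2 _ (cup_mem_bc.2 (Submodule.mem_span_singleton_self _))
  refine AffineSubspace.ext_of_direction_eq e3 ⟨x₀, h0, ?_⟩
  have := AffineSubspace.vadd_mem_of_mem_direction (e3 ▸ h3) h0'
  rwa [vadd_eq_add, sub_add_cancel] at this

/-- every finite subset of `Exc F` has at most `deg F` elements -/
theorem flatStmt (d : ℕ) : FlatStmt d := by
  intro F hF
  have h1 : ∀ Φ : AffineSubspace ℂ (Pt d), ∃ (x₀ : Pt d) (η : Fin d → LL d), Φ ∈ Exc F →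
      x₀ ∈ Φ ∧ η ≠ 0 ∧ nv (SS d) η ∈ bc (LL d) Φ.direction ∧ lf η (∑ i, η i * pz x₀ i) ∣ F := by
    intro Φ
    by_cases h : Φ ∈ Exc F
    · obtain ⟨x₀, h0⟩ := h.1.1
      obtain ⟨η, hη⟩ := exists_lf hF h h0
      exact ⟨x₀, η, fun _ => ⟨h0, hη⟩⟩
    · exact ⟨0, 0, fun h' => absurd h' h⟩
  choose x η h using h1
  have key : ∀ s : Finset (AffineSubspace ℂ (Pt d)), (s : Set _) ⊆ Exc F → s.card ≤ F.totalDegree := by
    intro s hs
    refine card_le_of_lf s η (fun Φ => ∑ i, η Φ i * pz (x Φ) i) (fun a ha => (h a (hs ha)).2.1)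
      (fun a ha b hb u hu hc => ?_) hF fun a ha => (h a (hs ha)).2.2.2
    obtain ⟨a1, -, a3, -⟩ := h a (hs ha)
    obtain ⟨b1, b2, b3, -⟩ := h b (hs hb)
    refine flat_eq (hs ha).1 (hs hb).1 a1 b1 b2 ?_ b3 ?_
    · rw [hu, flatB_nv_smul]
      exact Submodule.smul_mem _ _ a3
    · rw [hc, hu, mul_sum]
      exact sum_congr rfl fun i _ => by simp only [Pi.smul_apply, smul_eq_mul, mul_assoc]
  have hfin : (Exc F).Finite := by
    by_contra hi
    obtain ⟨s, hs, hc⟩ := Set.Infinite.exists_subset_card_eq hi (F.totalDegree + 1)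
    have := key s hs
    omega
  refine ⟨hfin, ?_⟩
  rw [Set.ncard_eq_toFinset_card _ hfin]
  exact key _ (by simp)

end Crest.Agent.R65.KL
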