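import Crest.Agent.R65.KL.Defs

/-! Row 65, key lemma: linear algebra of the split form. -/

set_option autoImplicit false

open Finset Module

namespace Crest.Agent.R65.KL

open Mn

section form

variable {d : ℕ} {R : Type} [Field R]

theorem BB_self (x : Ix d → R) : BB x x = 2 * QQ x := by
  simp only [BB, QQ, mul_sum]
  exact sum_congr rfl fun i _ => by ring

theorem QQ_add (x y : Ix d → R) : QQ (x + y) = QQ x + QQ y + BB x y := by
  simp only [BB, QQ, Pi.add_apply, ← sum_add_distrib]
  exact sum_congr rfl fun i _ => by ring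

/-- `BB` as a bilinear form -/
def linfB (d : ℕ) (R : Type) [Field R] : LinearMap.BilinForm R (Ix d → R) :=
  LinearMap.mk₂ R BB (fun x y z => by rw [BB_comm, BB_add_right, BB_comm z, BB_comm z])
    (fun c x y => by rw [BB_comm, BB_smul_right, BB_comm y, smul_eq_mul]) BB_add_right BB_smul_right

theorem linf_nondeg (d : ℕ) (R : Type) [Field R] : (linfB d R).Nondegenerate := by
  have h : ∀ x : Ix d → R, (∀ y, BB x y = 0) → x = 0 := fun x hx => by
    funext k
    rcases k with i | i
    · simpa [BB, Pi.single_apply] using hx (Pi.single (Sum.inr i) 1)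
    · simpa [BB, Pi.single_apply] using hx (Pi.single (Sum.inl i) 1)
  exact ⟨h, fun x hx => h x fun y => (BB_comm x y).trans (hx y)⟩

/-- `BB` is a nondegenerate symmetric bilinear form (`LinearMap.BilinForm.finrank_orthogonal`, or
`Subspace.finrank_add_finrank_dualAnnihilator_eq`). -/
theorem finrank_perp (T : Submodule R (Ix d → R)) : finrank R (perp T) + finrank R T = 2 * d := by
  have h := LinearMap.BilinForm.finrank_orthogonal (linf_nondeg d R) T
  have h2 := T.finrank_le
  rw [finrank_fintype_fun_eq_card, Fintype.card_sum, Fintype.card_fin] at h h2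
  change finrank R (perp T) = _ at h
  omega

theorem perp_perp (T : Submodule R (Ix d → R)) : perp (perp T) = T := by
  exact LinearMap.BilinForm.orthogonal_orthogonal (linf_nondeg d R)
    (fun x y h => (BB_comm y x).trans h) T

/-- an isotropic subspace of dimension `d` is its own complement -/
theorem perp_eq_self {T : Submodule R (Ix d → R)} (h : ∀ s ∈ T, ∀ t ∈ T, BB s t = 0)
    (hd : finrank R T = d) : perp T = T := by
  have := finrank_perp T
  exact (Submodule.eq_of_le_of_finrank_le (show T ≤ perp T from fun t ht s hs => h s hs t ht)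
    (by omega)).symm

/-- every functional on a subspace is `BB · x₀` -/
theorem exists_BB (T : Submodule R (Ix d → R)) (c : T →ₗ[R] R) :
    ∃ x₀ : Ix d → R, ∀ w : T, BB (w : Ix d → R) x₀ = c w := by
  obtain ⟨g, hg⟩ := c.exists_extend
  refine ⟨((linfB d R).toDual (linf_nondeg d R)).symm g, fun w => ?_⟩
  rw [BB_comm, ← hg]
  exact LinearMap.BilinForm.apply_toDual_symm_apply (hB := linf_nondeg d R) g w

theorem prj_nv (S : Fin d → Fin d → R) (η : Fin d → R) : prj S (nv S η) = 0 := by
  funext i
  simp [prj, nv]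

theorem BB_nv {S : Fin d → Fin d → R} (hS : ∀ i j, S j i = -S i j) (η : Fin d → R)
    (x : Ix d → R) : BB x (nv S η) = ∑ i, η i * prj S x i := by
  have e : ∑ i, x (Sum.inr i) * -∑ j, S i j * η j = ∑ i, η i * ∑ j, S i j * x (Sum.inr j) := by
    simp only [mul_neg, mul_sum, ← sum_neg_distrib]
    rw [sum_comm]
    exact sum_congr rfl fun i _ => sum_congr rfl fun j _ => by rw [hS i j]; ring
  simp only [BB, nv, prj, Sum.elim_inl, Sum.elim_inr, sum_add_distrib, add_mul, e, mul_comm (η _)]

/-- a proper subspace lies in a hyperplane -/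
theorem exists_normal (U : Submodule R (Fin d → R)) (hU : U ≠ ⊤) :
    ∃ η : Fin d → R, η ≠ 0 ∧ ∀ u ∈ U, ∑ i, η i * u i = 0 := by
  obtain ⟨f, f0, hf⟩ := U.exists_le_ker_of_lt_top hU.lt_top
  have e : ∀ u, f u = ∑ i, f (fun j => if i = j then 1 else 0) * u i := fun u => by
    rw [LinearMap.pi_apply_eq_sum_univ]
    exact sum_congr rfl fun i _ => mul_comm _ _
  refine ⟨fun i => f fun j => if i = j then 1 else 0, fun h => f0 (LinearMap.ext fun u => ?_),
    fun u hu => (e u).symm.trans (hf hu)⟩
  rw [e]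
  exact sum_eq_zero fun i _ => by rw [congrFun h i, Pi.zero_apply, zero_mul]

end form

section bc

variable {ι Ω : Type} [Fintype ι] [Field Ω] [Algebra ℂ Ω]

/-- A `ℂ`-basis of `T` stays independent over `Ω` (e.g. a left inverse of the coordinate map of the
basis, or `linearIndependent_algebraMap_comp_iff`). -/
theorem finrank_bc (T : Submodule ℂ (ι → ℂ)) : finrank Ω (bc Ω T) = finrank ℂ T := by
  let b := Module.finBasis ℂ T
  have h1 : LinearIndependent ℂ fun i => (b i : ι → ℂ) :=
    b.linearIndependent.map' T.subtype (Submodule.ker_subtype T)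
  have h2 : LinearIndependent Ω fun i => cup Ω (b i : ι → ℂ) :=
    (linearIndependent_algebraMap_comp_iff (S := Ω)).2 h1
  have h3 : bc Ω T = Submodule.span Ω (Set.range fun i => cup Ω (b i : ι → ℂ)) := by
    refine le_antisymm (Submodule.span_le.2 ?_) (Submodule.span_mono ?_)
    · rintro _ ⟨y, hy, rfl⟩
      have e : cup Ω y = ∑ i, algebraMap ℂ Ω (b.repr ⟨y, hy⟩ i) • cup Ω (b i : ι → ℂ) := by
        funext k
        have e1 := congrFun (congrArg Subtype.val (b.sum_repr ⟨y, hy⟩)) k
        simp only [Submodule.coe_sum, Submodule.coe_smul, Finset.sum_apply, Pi.smul_apply,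
          smul_eq_mul] at e1
        simp only [Finset.sum_apply, Pi.smul_apply, smul_eq_mul]
        change algebraMap ℂ Ω (y k) = ∑ i, algebraMap ℂ Ω (b.repr ⟨y, hy⟩ i) *
          algebraMap ℂ Ω ((b i : ι → ℂ) k)
        simp only [← map_mul, ← map_sum, e1]
      rw [e]
      exact Submodule.sum_mem _ fun i _ =>
        Submodule.smul_mem _ _ (Submodule.subset_span ⟨i, rfl⟩)
    · rintro _ ⟨i, rfl⟩
      exact ⟨_, (b i).2, rfl⟩
  rw [h3, finrank_span_eq_card h2, Fintype.card_fin]

theorem cup_mem_bc {T : Submodule ℂ (ι → ℂ)} {y : ι → ℂ} : cup Ω y ∈ bc Ω T ↔ y ∈ T := by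
  classical
  refine ⟨fun h => ?_, fun h => Submodule.subset_span ⟨y, h, rfl⟩⟩
  by_contra hy
  obtain ⟨φ, h1, h2⟩ := T.exists_dual_map_eq_bot_of_notMem hy inferInstance
  have h3 : ∀ x : ι → ℂ, ∑ k, cup Ω x k * algebraMap ℂ Ω (φ (Pi.single k 1)) =
      algebraMap ℂ Ω (φ x) := by
    intro x
    rw [LinearMap.pi_apply_eq_sum_univ φ x, map_sum]
    refine sum_congr rfl fun k _ => ?_
    rw [smul_eq_mul, map_mul]
    congr 3
    funext j
    simp [Pi.single_apply, eq_comm]
  have h4 : ∀ z ∈ bc Ω T, ∑ k, z k * algebraMap ℂ Ω (φ (Pi.single k 1)) = 0 := by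
    intro z hz
    induction hz using Submodule.span_induction with
    | mem _ hx =>
      obtain ⟨x, hx, rfl⟩ := hx
      have : φ x ∈ T.map φ := Submodule.mem_map_of_mem hx
      rw [h2, Submodule.mem_bot] at this
      rw [h3, this, map_zero]
    | zero => simp
    | add a b _ _ ha hb => simp only [Pi.add_apply, add_mul, sum_add_distrib, ha, hb, add_zero]
    | smul c a _ ha =>
      simp only [Pi.smul_apply, smul_eq_mul, mul_assoc, ← mul_sum, ha, mul_zero]
  have h5 := h4 _ h
  rw [h3] at h5
  exact h1 ((map_eq_zero _).1 h5)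

omit [Fintype ι] in
theorem stab_bc (Θ : Derivation ℂ Ω Ω) (T : Submodule ℂ (ι → ℂ)) : Stab Θ (bc Ω T) := by
  intro t ht
  induction ht using Submodule.span_induction with
  | mem _ hx =>
    obtain ⟨x, -, rfl⟩ := hx
    have : (fun k => Θ (cup Ω x k)) = 0 := funext fun k => Θ.map_algebraMap _
    rw [this]
    exact Submodule.zero_mem _
  | zero =>
    have : (fun k => Θ ((0 : ι → Ω) k)) = 0 := funext fun k => map_zero Θ
    rw [this]
    exact Submodule.zero_mem _
  | add a b _ _ ha hb =>
    have : (fun k => Θ ((a + b) k)) = (fun k => Θ (a k)) + fun k => Θ (b k) :=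
      funext fun k => map_add Θ _ _
    rw [this]
    exact Submodule.add_mem _ ha hb
  | smul c a h ha =>
    have : (fun k => Θ ((c • a) k)) = (c • fun k => Θ (a k)) + Θ c • a := by
      funext k
      simp only [Pi.smul_apply, Pi.add_apply, smul_eq_mul, Derivation.leibniz]
      ring
    rw [this]
    exact Submodule.add_mem _ (Submodule.smul_mem _ _ ha) (Submodule.smul_mem _ _ h)

theorem BB_cup {d : ℕ} (x y : Ix d → ℂ) :
    BB (cup Ω x) (cup Ω y) = algebraMap ℂ Ω (BB x y) := by
  change ∑ i, (algebraMap ℂ Ω (x (Sum.inl i)) * algebraMap ℂ Ω (y (Sum.inr i)) +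
      algebraMap ℂ Ω (x (Sum.inr i)) * algebraMap ℂ Ω (y (Sum.inl i))) =
    algebraMap ℂ Ω (∑ i, (x (Sum.inl i) * y (Sum.inr i) + x (Sum.inr i) * y (Sum.inl i)))
  simp only [map_sum, map_add, map_mul]

theorem bc_iso {d : ℕ} {T : Submodule ℂ (Ix d → ℂ)} (h : ∀ v ∈ T, QQ v = 0) :
    ∀ s ∈ bc Ω T, ∀ t ∈ bc Ω T, BB s t = 0 := by
  have h0 : ∀ x : Ix d → Ω, BB x 0 = 0 := fun x => by
    simpa using BB_smul_right 0 x 0
  have h1 : ∀ x ∈ T, ∀ t ∈ bc Ω T, BB (cup Ω x) t = 0 := by
    intro x hx t ht
    induction ht using Submodule.span_induction with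
    | mem _ hy =>
      obtain ⟨y, hy, rfl⟩ := hy
      have e := QQ_add x y
      rw [h _ (T.add_mem hx hy), h x hx, h y hy, zero_add, zero_add] at e
      rw [BB_cup, ← e, map_zero]
    | zero => exact h0 _
    | add a b _ _ ha hb => rw [BB_add_right, ha, hb, add_zero]
    | smul c a _ ha => rw [BB_smul_right, ha, mul_zero]
  intro s hs t ht
  rw [BB_comm]
  induction hs using Submodule.span_induction with
  | mem _ hx =>
    obtain ⟨x, hx, rfl⟩ := hx
    rw [BB_comm]
    exact h1 x hx t ht
  | zero => exact h0 _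
  | add a b _ _ ha hb => rw [BB_add_right, ha, hb, add_zero]
  | smul c a _ ha => rw [BB_smul_right, ha, mul_zero]

end bc

end Crest.Agent.R65.KL
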