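import Crest.Agent.R65.KL.Lin

/-! Row 65, key lemma: a generic isotropic subspace only meets large stable subspaces. -/

set_option autoImplicit false

open Finset Module

namespace Crest.Agent.R65.KL

open Mn

variable {d : ℕ} {Ω : Type} [Field Ω] [Algebra ℂ Ω] {S : Fin d → Fin d → Ω}
  {D : Fin d → Fin d → Derivation ℂ Ω Ω}

theorem der_BB (Θ : Derivation ℂ Ω Ω) (x y : Ix d → Ω) :
    Θ (BB x y) = BB (fun k => Θ (x k)) y + BB x (fun k => Θ (y k)) := by
  simp only [BB, map_sum, map_add, Derivation.leibniz, smul_eq_mul, ← sum_add_distrib]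
  exact sum_congr rfl fun i _ => by ring

theorem Stab.perp {Θ : Derivation ℂ Ω Ω} {T : Submodule Ω (Ix d → Ω)} (h : Stab Θ T) :
    Stab Θ (perp T) := by
  intro w hw t ht
  have h1 := der_BB Θ t w
  rw [hw t ht, map_zero, hw _ (h t ht), zero_add] at h1
  exact h1.symm

/-- differentiate `prj S (nv S η) = 0` -/
theorem prj_der_nv (hG : Gen S D) (η : Fin d → Ω) (i j m : Fin d) :
    prj S (fun k => D i j (nv S η k)) m = -∑ l, Eu Ω i j m l * η l := by
  simp only [prj, nv, Sum.elim_inl, Sum.elim_inr, map_neg, map_sum, Derivation.leibniz, smul_eq_mul,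
    hG.der, sum_add_distrib]
  rw [sum_congr rfl fun l _ => mul_comm (η l) (Eu Ω i j m l)]
  ring

/-- If `η j ≠ 0`, the vectors `-(η j e_i - η i e_j)` span the hyperplane `η ^ ⊥`:
`u = ∑_i (u i / η j) (η j e_i - η i e_j)` for `η · u = 0`. -/
theorem core (hG : Gen S D) {η : Fin d → Ω} (hη : η ≠ 0) (T : Submodule Ω (Ix d → Ω))
    (h : ∀ i j, (fun k => D i j (nv S η k)) ∈ T) (u : Fin d → Ω) (hu : ∑ i, η i * u i = 0) :
    u ∈ T.map (prjL S) := by
  obtain ⟨j, hj⟩ := Function.ne_iff.mp hη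
  have hj' : η j ≠ 0 := hj
  have e : u = ∑ i, (-(u i / η j)) • prjL S (fun k => D i j (nv S η k)) := by
    funext m
    have e1 : ∀ i, ∑ l, Eu Ω i j m l * η l =
        (if m = i then η j else 0) - if m = j then η i else 0 := by
      intro i
      simp only [Eu, sub_mul, sum_sub_distrib, ite_and, ite_mul, one_mul, zero_mul]
      congr 1
      · split_ifs <;> simp
      · split_ifs <;> simp
    simp only [Finset.sum_apply, Pi.smul_apply, smul_eq_mul, prjL_apply, prj_der_nv hG, e1,
      neg_mul_neg, mul_sub, sum_sub_distrib, mul_ite, mul_zero, sum_ite_eq, mem_univ, if_true]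
    rw [div_mul_cancel₀ _ hj']
    split_ifs with hm
    · have : ∑ i, u i / η j * η i = (∑ i, η i * u i) / η j := by
        rw [sum_div]
        exact sum_congr rfl fun i _ => by ring
      rw [this, hu, zero_div, sub_zero]
    · simp
  rw [e]
  exact Submodule.sum_mem _ fun i _ => Submodule.smul_mem _ _ (Submodule.mem_map_of_mem (h i j))

/-- the hyperplane `η ^ ⊥` has dimension `d - 1` -/
theorem core_rank (hG : Gen S D) {η : Fin d → Ω} (hη : η ≠ 0) (T : Submodule Ω (Ix d → Ω))
    (h : ∀ i j, (fun k => D i j (nv S η k)) ∈ T) : d ≤ finrank Ω (T.map (prjL S)) + 1 := by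
  let φ : (Fin d → Ω) →ₗ[Ω] Ω := ∑ i, η i • LinearMap.proj i
  have h1 : LinearMap.ker φ ≤ T.map (prjL S) := fun u hu =>
    core hG hη T h u (by simpa [φ] using hu)
  have h2 := φ.finrank_range_add_finrank_ker
  have h3 : finrank Ω (LinearMap.range φ) ≤ 1 :=
    (Submodule.finrank_le _).trans (finrank_self Ω).le
  have h4 := Submodule.finrank_mono h1
  rw [finrank_fin_fun] at h2
  omega

theorem tr_aux (hG : Gen S D) {η : Fin d → Ω} (hη : η ≠ 0) {T : Submodule Ω (Ix d → Ω)}
    (h : ∀ i j, (fun k => D i j (nv S η k)) ∈ T) (hv : nv S η ∈ T) : d ≤ finrank Ω T := by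
  have h1 := core_rank hG hη T h
  have h2 := ((prjL S).domRestrict T).finrank_range_add_finrank_ker
  rw [LinearMap.range_domRestrict] at h2
  have h3 : LinearMap.ker ((prjL S).domRestrict T) ≠ ⊥ := by
    rw [Submodule.ne_bot_iff]
    refine ⟨⟨nv S η, hv⟩, prj_nv S η, fun h0 => hη (funext fun i => ?_)⟩
    exact congrFun (congrArg Subtype.val h0) (Sum.inr i)
  have h4 := Submodule.one_le_finrank_iff.mpr h3
  omega

/-- rank-nullity for `prjL S` on `T`; the kernel contains `nv S η ≠ 0` -/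
theorem tr1 (hG : Gen S D) {η : Fin d → Ω} (hη : η ≠ 0) {T : Submodule Ω (Ix d → Ω)}
    (hT : ∀ i j, Stab (D i j) T) (hv : nv S η ∈ T) : d ≤ finrank Ω T :=
  tr_aux hG hη (fun i j => hT i j _ hv) hv

/-- Let `v = nv S η`, `U = span (v, D i j v) ≤ T`.  `d ≤ finrank U` as in `tr1`, so `U = T`.
`BB v v = 0`, hence `BB v (D v) = 0`, so `v ∈ perp T`, which is stable: `U ≤ perp T`. -/
theorem tr2 (hG : Gen S D) {η : Fin d → Ω} (hη : η ≠ 0) {T : Submodule Ω (Ix d → Ω)}
    (hT : ∀ i j, Stab (D i j) T) (hv : nv S η ∈ T) (hd : finrank Ω T ≤ d) :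
    ∀ s ∈ T, ∀ t ∈ T, BB s t = 0 := by
  have : CharZero Ω := charZero_of_injective_algebraMap (algebraMap ℂ Ω).injective
  let A : Set (Ix d → Ω) :=
    insert (nv S η) (Set.range fun q : Fin d × Fin d => fun k => D q.1 q.2 (nv S η k))
  have hle : ∀ W : Submodule Ω (Ix d → Ω), nv S η ∈ W → (∀ i j, Stab (D i j) W) →
      Submodule.span Ω A ≤ W := by
    intro W h1 h2
    rw [Submodule.span_le]
    rintro _ (rfl | ⟨q, rfl⟩)
    · exact h1
    · exact h2 _ _ _ h1
  have hU : Submodule.span Ω A = T := by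
    refine Submodule.eq_of_le_of_finrank_le (hle T hv hT) (hd.trans (tr_aux hG hη (fun i j => ?_) ?_))
    · exact Submodule.subset_span (Or.inr ⟨(i, j), rfl⟩)
    · exact Submodule.subset_span (Or.inl rfl)
  have h0 : BB (nv S η) (nv S η) = 0 := by
    rw [BB_nv hG.skew, prj_nv]
    simp
  have h1 : nv S η ∈ perp T := by
    rw [← hU]
    intro t ht
    rw [BB_comm]
    induction ht using Submodule.span_induction with
    | mem t ht =>
      rcases ht with rfl | ⟨q, rfl⟩
      · exact h0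
      · have e := der_BB (D q.1 q.2) (nv S η) (nv S η)
        rw [h0, map_zero, BB_comm, ← two_mul] at e
        exact (mul_eq_zero.mp e.symm).resolve_left two_ne_zero
    | zero => simp [BB]
    | add x y _ _ hx hy => rw [BB_add_right, hx, hy, add_zero]
    | smul c x _ hx => rw [BB_smul_right, hx, mul_zero]
  have h2 : T ≤ perp T := hU.ge.trans (hle _ h1 fun i j => (hT i j).perp)
  exact fun s hs t ht => h2 ht s hs

theorem tr3 (hG : Gen S D) {η : Fin d → Ω} (hη : η ≠ 0) :
    d ≤ finrank Ω (Tan (nv S η)) + 1 :=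
  (core_rank hG hη (Tan (nv S η)) fun i j => mem_Tan.2 ⟨D i j, rfl⟩).trans
    (Nat.add_le_add_right (Submodule.finrank_map_le _ _) 1)

end Crest.Agent.R65.KL
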