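import Crest.Agent.R65.KL.TR
import Crest.Agent.R65.KL.Der2

/-! Row 65, key lemma: tangent spaces. -/

set_option autoImplicit false

open Finset Module

namespace Crest.Agent.R65.KL

open Mn

variable {ι Ω : Type} [Fintype ι] [Field Ω] [Algebra ℂ Ω]

/-- The dual derivations `Θ_i` (`der_prescribe`) give independent vectors `Θ_i x`. -/
theorem le_finrank_Tan (x : ι → Ω) {κ : Type} [Fintype κ] {y : κ → Ω}
    (hy : AlgebraicIndependent ℂ y)
    (h : ∀ Θ : Derivation ℂ Ω Ω, (∀ k, Θ (x k) = 0) → ∀ i, Θ (y i) = 0) :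
    Fintype.card κ ≤ finrank Ω (Tan x) := by
  classical
  choose Θ hΘ using fun i : κ => der_prescribe hy (Pi.single i 1)
  have hli : LinearIndependent Ω fun i : κ => (⟨fun k => Θ i (x k), Θ i, rfl⟩ : Tan x) := by
    refine Fintype.linearIndependent_iff.2 fun c hc j => ?_
    have key : ∀ z : Ω, (∑ i, c i • Θ i) z = ∑ i, c i * Θ i z := fun z => by
      have h3 := congrFun (map_sum Derivation.coeFnAddMonoidHom (fun i => c i • Θ i) Finset.univ) z
      rw [Finset.sum_apply] at h3
      exact h3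
    have h1 := h (∑ i, c i • Θ i) (fun k => by
      have h2 := congrFun (congrArg Subtype.val hc) k
      rw [key]
      simpa [Finset.sum_apply] using h2) j
    rw [key] at h1
    simpa [hΘ, Pi.single_apply] using h1
  exact hli.fintype_card_le_finrank

/-- Take a maximal finset `I` with `x|_I` algebraically independent; every `x k` is algebraic over
`ℂ[x_I]` (`AlgebraicIndependent.option_iff`), so (`der_zero_of_alg`) the restriction
`Tan x → (I → Ω)` is injective and `e ≤ #I`. -/
theorem exists_indep_of_le (x : ι → Ω) {e : ℕ} (h : e ≤ finrank Ω (Tan x)) :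
    ∃ f : Fin e → ι, AlgebraicIndependent ℂ (x ∘ f) := by
  classical
  obtain ⟨I, hI, hmax⟩ := Finset.exists_max_image
    ((Finset.univ : Finset (Finset ι)).filter fun I : Finset ι =>
      AlgebraicIndepOn ℂ x (I : Set ι))
    Finset.card ⟨∅, Finset.mem_filter.2 ⟨Finset.mem_univ _, by
      rw [Finset.coe_empty]
      exact algebraicIndependent_empty_type⟩⟩
  have hI' : AlgebraicIndepOn ℂ x (I : Set ι) := (Finset.mem_filter.1 hI).2
  have hzero : ∀ Θ : Derivation ℂ Ω Ω, (∀ k ∈ I, Θ (x k) = 0) → ∀ k, Θ (x k) = 0 := by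
    intro Θ hΘ k
    by_cases hk : k ∈ I
    · exact hΘ k hk
    refine der_zero_of_alg Θ (x '' (I : Set ι)) ?_ ?_
    · rintro _ ⟨j, hj, rfl⟩
      exact hΘ j hj
    · by_contra hcon
      have h1 := hmax (insert k I) (Finset.mem_filter.2 ⟨Finset.mem_univ _, by
        rw [Finset.coe_insert]
        exact (AlgebraicIndepOn.insert_iff (by exact_mod_cast hk)).2 ⟨hI', hcon⟩⟩)
      rw [Finset.card_insert_of_notMem hk] at h1
      omega
  have hinj : Function.Injective
      ((LinearMap.funLeft Ω Ω ((↑) : I → ι)) ∘ₗ (Tan x).subtype) := by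
    refine (injective_iff_map_eq_zero _).2 ?_
    rintro ⟨_, Θ, rfl⟩ h0
    exact Subtype.ext (funext (hzero Θ fun k hk => congrFun h0 ⟨k, hk⟩))
  have hle := LinearMap.finrank_le_finrank_of_injective hinj
  rw [Module.finrank_fintype_fun_eq_card] at hle
  obtain ⟨g⟩ : Nonempty (Fin e ↪ I) :=
    Function.Embedding.nonempty_of_card_le (by rw [Fintype.card_fin]; exact h.trans hle)
  exact ⟨fun i => g i, AlgebraicIndependent.comp hI' g g.injective⟩

omit [Fintype ι] in
/-- `D (Θ x) = ⁅D, Θ⁆ x` -/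
theorem stab_Tan (x : ι → Ω) {D : Derivation ℂ Ω Ω} (h : ∀ k, D (x k) = 0) : Stab D (Tan x) := by
  rintro _ ⟨Θ, rfl⟩
  refine ⟨⁅D, Θ⁆, funext fun k => ?_⟩
  rw [Derivation.commutator_apply, h, map_zero, sub_zero]

/-- Braid lemma.  `b(Θ, Θ', Θ'') = BB (Θ Θ' x) (Θ'' x)` is skew in `Θ', Θ''` (`der_BB`) and symmetric in
`Θ, Θ'` (`⁅Θ, Θ'⁆ x ∈ Tan x`), hence zero (characteristic `0`); `perp_eq_self`. -/
theorem braid {d : ℕ} (x : Ix d → Ω) (h : ∀ s ∈ Tan x, ∀ t ∈ Tan x, BB s t = 0)
    (hd : finrank Ω (Tan x) = d) (Θ : Derivation ℂ Ω Ω) : Stab Θ (Tan x) := by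
  have : CharZero Ω := charZero_of_injective_algebraMap (algebraMap ℂ Ω).injective
  let b : Derivation ℂ Ω Ω → Derivation ℂ Ω Ω → Derivation ℂ Ω Ω → Ω :=
    fun A B C => BB (fun k => A (B (x k))) fun k => C (x k)
  have skew : ∀ A B C, b A B C = -b A C B := by
    intro A B C
    have e := der_BB A (fun k => B (x k)) fun k => C (x k)
    rw [h _ ⟨B, rfl⟩ _ ⟨C, rfl⟩, map_zero, BB_comm (fun k => B (x k))] at e
    exact eq_neg_of_add_eq_zero_left e.symm
  have symm : ∀ A B C, b A B C = b B A C := by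
    intro A B C
    have e := h _ ⟨C, rfl⟩ _ ⟨⁅A, B⁆, rfl⟩
    have e2 : (fun k => A (B (x k))) = (fun k => ⁅A, B⁆ (x k)) + fun k => B (A (x k)) := by
      funext k
      rw [Pi.add_apply, Derivation.commutator_apply, sub_add_cancel]
    show BB _ _ = BB _ _
    rw [e2, BB_comm, BB_add_right, e, zero_add, BB_comm]
  have zero : ∀ A B C, b A B C = 0 := by
    intro A B C
    have e1 := skew A B C
    have e2 := symm A C B
    have e3 := skew C A B
    have e4 := symm C B A
    have e5 := skew B C A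
    have e6 := symm B A C
    have : 2 * b A B C = 0 := by linear_combination e1 - e2 - e3 + e4 + e5 - e6
    exact (mul_eq_zero.1 this).resolve_left two_ne_zero
  rintro _ ⟨B, rfl⟩
  rw [← perp_eq_self h hd, mem_perp]
  rintro _ ⟨C, rfl⟩
  rw [BB_comm]
  exact zero Θ B C

theorem desc_min (T : Submodule Ω (ι → Ω)) (h : ∀ Θ : Derivation ℂ Ω Ω, Stab Θ T) (n : ℕ) :
    ∀ t ∈ T, (Function.support t).ncard < n → t ≠ 0 →
      ∃ y : ι → ℂ, cup Ω y ∈ T ∧ y ≠ 0 ∧ ∀ k, t k = 0 → y k = 0 := by
  induction n with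
  | zero => intro t _ h0; omega
  | succ n ih =>
    intro t ht hn h0
    obtain ⟨k, hk⟩ := Function.ne_iff.1 h0
    have hk' : t k ≠ 0 := hk
    have hs : (t k)⁻¹ • t ∈ T := T.smul_mem _ ht
    by_cases hc : ∀ Θ : Derivation ℂ Ω Ω, (fun j => Θ (((t k)⁻¹ • t) j)) = 0
    · choose y hy using fun j => const_of_der (z := ((t k)⁻¹ • t) j) fun Θ => congrFun (hc Θ) j
      have e : cup Ω y = (t k)⁻¹ • t := funext fun j => (hy j).symm
      refine ⟨y, e ▸ hs, fun h1 => ?_, fun j hj => ?_⟩
      · have := hy k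
        rw [h1, Pi.zero_apply, map_zero, Pi.smul_apply, smul_eq_mul, inv_mul_cancel₀ hk'] at this
        exact one_ne_zero this
      · have := hy j
        rw [Pi.smul_apply, hj, smul_zero] at this
        exact (algebraMap ℂ Ω).injective (by rw [← this, map_zero])
    · push Not at hc
      obtain ⟨Θ, hΘ⟩ := hc
      have hz : ∀ j, t j = 0 → Θ (((t k)⁻¹ • t) j) = 0 := fun j hj => by
        rw [Pi.smul_apply, hj, smul_zero, map_zero]
      have hlt : (Function.support fun j => Θ (((t k)⁻¹ • t) j)).ncard <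
          (Function.support t).ncard := by
        refine Set.ncard_lt_ncard ⟨fun j hj h1 => hj (hz j h1), fun h1 => h1 hk' ?_⟩
          (Set.toFinite _)
        show Θ (((t k)⁻¹ • t) k) = 0
        rw [Pi.smul_apply, smul_eq_mul, inv_mul_cancel₀ hk', Derivation.map_one_eq_zero]
      obtain ⟨y, h1, h2, h3⟩ := ih _ (h Θ _ hs) (by omega) hΘ
      exact ⟨y, h1, h2, fun j hj => h3 j (hz j hj)⟩

/-- Descent.  Choose `I ⊆ ι` such that the restriction `T → (I → Ω)` is bijective (the coordinate
functionals span the dual of `T`; or a maximal `I` with surjective restriction).  The dual basis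
vectors `e_i` have `Θ e_i ∈ T` with zero `I`-coordinates, so `Θ e_i = 0`; `const_of_der`. -/
theorem desc (T : Submodule Ω (ι → Ω)) (h : ∀ Θ : Derivation ℂ Ω Ω, Stab Θ T) :
    ∃ T₀ : Submodule ℂ (ι → ℂ), bc Ω T₀ = T := by
  let T₀ : Submodule ℂ (ι → ℂ) :=
    { carrier := {y | cup Ω y ∈ T}
      add_mem' := fun {a b} ha hb => by
        have e : cup Ω (a + b) = cup Ω a + cup Ω b := funext fun k => map_add _ _ _
        show cup Ω (a + b) ∈ T
        rw [e]
        exact T.add_mem ha hb
      zero_mem' := by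
        have e : cup Ω (0 : ι → ℂ) = 0 := funext fun k => map_zero _
        show cup Ω 0 ∈ T
        rw [e]
        exact T.zero_mem
      smul_mem' := fun c a ha => by
        have e : cup Ω (c • a) = algebraMap ℂ Ω c • cup Ω a := funext fun k => map_mul _ _ _
        show cup Ω (c • a) ∈ T
        rw [e]
        exact T.smul_mem _ ha }
  refine ⟨T₀, le_antisymm (Submodule.span_le.2 ?_) ?_⟩
  · rintro _ ⟨y, hy, rfl⟩
    exact hy
  have key : ∀ n : ℕ, ∀ t ∈ T, (Function.support t).ncard < n → t ∈ bc Ω T₀ := by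
    intro n
    induction n with
    | zero => intro t _ h0; omega
    | succ n ih =>
      intro t ht hn
      by_cases h0 : t = 0
      · rw [h0]
        exact Submodule.zero_mem _
      obtain ⟨y, h1, h2, h3⟩ := desc_min T h _ t ht (Nat.lt_succ_self _) h0
      obtain ⟨k, hk⟩ := Function.ne_iff.1 h2
      have hk' : y k ≠ 0 := hk
      have hk2 : cup Ω y k ≠ 0 := (map_ne_zero (algebraMap ℂ Ω)).2 hk'
      have hy : cup Ω y ∈ bc Ω T₀ := Submodule.subset_span ⟨y, h1, rfl⟩
      have hlt : (Function.support (t - (t k / cup Ω y k) • cup Ω y)).ncard <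
          (Function.support t).ncard := by
        refine Set.ncard_lt_ncard ⟨fun j hj h4 => hj ?_, fun h4 =>
          h4 (show t k ≠ 0 from fun h5 => hk' (h3 k h5)) ?_⟩ (Set.toFinite _)
        · have : cup Ω y j = 0 := by
            unfold cup
            rw [h3 j h4, map_zero]
          rw [Pi.sub_apply, Pi.smul_apply, h4, this, smul_zero, sub_zero]
        · rw [Pi.sub_apply, Pi.smul_apply, smul_eq_mul, div_mul_cancel₀ _ hk2, sub_self]
      have h5 := ih _ (T.sub_mem ht (T.smul_mem (t k / cup Ω y k) h1)) (by omega)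
      have h6 := Submodule.add_mem _ h5 (Submodule.smul_mem _ (t k / cup Ω y k) hy)
      rwa [sub_add_cancel] at h6
  exact fun t ht => key _ t ht (Nat.lt_succ_self _)

end Crest.Agent.R65.KL
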