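import Crest.Agent.R65.KL.Tan
import Crest.Agent.R65.KL.Gen

/-! Row 65, key lemma: small dimension gives linear growth. -/

set_option autoImplicit false

open Finset Module

namespace Crest.Agent.R65.KL

open Mn

/-- Lifts of independent residues together with a nonzero element of the maximal ideal are
independent.  `AlgebraicIndependent.option_iff`: `y` is independent as its image is; a relation
`∑ a_n(y) π ^ n = 0` of minimal degree in `π` has `a_0 ≠ 0` (divide by `π`), and `ρ` gives
`a_0 (ρ y) = 0`. -/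
theorem val_indep {A κ ι : Type} [CommRing A] [IsDomain A] [Field κ] [Algebra ℂ A] [Algebra ℂ κ]
    (ρ : A →ₐ[ℂ] κ) (y : ι → A) (hy : AlgebraicIndependent ℂ (ρ ∘ y)) {π : A} (h0 : π ≠ 0)
    (hπ : ρ π = 0) : AlgebraicIndependent ℂ fun o : Option ι => o.elim π y := by
  refine AlgebraicIndependent.option_iff.2 ⟨AlgebraicIndependent.of_comp ρ hy, ?_⟩
  rintro ⟨p, hp0, hp⟩
  obtain ⟨q, e, hq⟩ := Polynomial.exists_eq_pow_rootMultiplicity_mul_and_not_dvd p hp0 0
  rw [map_zero, sub_zero] at e hq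
  have h1 : Polynomial.aeval π q = 0 := by
    rw [e, map_mul, map_pow, Polynomial.aeval_X] at hp
    exact (mul_eq_zero.1 hp).resolve_left (pow_ne_zero _ h0)
  have h2 : ρ (q.coeff 0 : A) = 0 := by
    have h3 := congrArg ρ h1
    rw [← Polynomial.X_mul_divX_add q, map_add, map_mul, Polynomial.aeval_X, Polynomial.aeval_C,
      map_add, map_mul, hπ, zero_mul, zero_add, map_zero] at h3
    exact h3
  obtain ⟨r, hr⟩ := (Algebra.adjoin_range_eq_range_aeval ℂ y).le (q.coeff 0).2
  have h5 : MvPolynomial.aeval y r = (q.coeff 0 : A) := hr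
  have h6 : MvPolynomial.aeval (ρ ∘ y) r = 0 := by
    rw [← h2, ← h5, ← AlgHom.comp_apply, MvPolynomial.comp_aeval]
    rfl
  rw [algebraicIndependent_iff.1 hy r h6, map_zero] at h5
  exact hq (Polynomial.X_dvd_iff.2 (Subtype.ext h5.symm))

/-- Suppose some coordinate has valuation `> γ`.  Choose `j` with `v (b j)` maximal, `λ = b j`; as
`a = z - S b`, `v λ > γ ≥ 1` and all `x k / λ ∈ O`, `z i / λ` and `π = 1 / λ` lie in the maximal
ideal.  In the residue field `κ` (an `LL d`-algebra through `O`, `exists_gen`) the residue of `x / λ` is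
`nv S η`, `η j = 1`.  By `tr3` and `exists_indep_of_le`, `d - 1` residues are independent; `val_indep`
and `le_finrank_Tan` give `d ≤ finrank (Tan x)`. -/
theorem val_case {d : ℕ} {Ω : Type} [Field Ω] [Algebra ℂ Ω] [Algebra (LL d) Ω]
    [IsScalarTower ℂ (LL d) Ω] (x : Ix d → Ω) (h : finrank Ω (Tan x) < d) : LinGrow x := by
  intro O hO γ hγ hz
  by_contra hcon
  push Not at hcon
  obtain ⟨k₀, hk₀⟩ := hcon
  obtain ⟨e, rfl⟩ : ∃ e, d = e + 1 := ⟨d - 1, by omega⟩
  obtain ⟨j, -, hj⟩ := exists_max_image (univ : Finset (Fin (e + 1)))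
    (fun j => O.valuation (x (Sum.inr j))) univ_nonempty
  have hS : ∀ i l, O.valuation (So (e + 1) Ω i l) ≤ 1 := fun i l =>
    (O.valuation_le_one_iff _).2 (hO _)
  have hSb : ∀ i, O.valuation (∑ l, So (e + 1) Ω i l * x (Sum.inr l)) ≤
      O.valuation (x (Sum.inr j)) := fun i => by
    refine O.valuation.map_sum_le fun l _ => ?_
    rw [map_mul]
    exact (mul_le_mul' (hS i l) (hj l (mem_univ _))).trans_eq (one_mul _)
  have ha : ∀ i, O.valuation (x (Sum.inl i)) ≤ max γ (O.valuation (x (Sum.inr j))) := fun i => by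
    have : x (Sum.inl i) = prj (So (e + 1) Ω) x i - ∑ l, So (e + 1) Ω i l * x (Sum.inr l) := by
      simp [prj]
    rw [this]
    exact (O.valuation.map_sub _ _).trans (max_le_max (hz i) (hSb i))
  have hlam : γ < O.valuation (x (Sum.inr j)) := by
    rcases k₀ with i | i
    · rcases lt_max_iff.1 (hk₀.trans_le (ha i)) with h1 | h1
      · exact absurd h1 (lt_irrefl _)
      · exact h1
    · exact hk₀.trans_le (hj i (mem_univ _))
  have hv0 : 0 < O.valuation (x (Sum.inr j)) := (zero_lt_one.trans_le hγ).trans hlam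
  have hl0 : x (Sum.inr j) ≠ 0 := fun h0 => by simp [h0] at hv0
  have hx : ∀ k, O.valuation (x k) ≤ O.valuation (x (Sum.inr j)) := by
    rintro (i | i)
    · exact (ha i).trans (max_le hlam.le le_rfl)
    · exact hj i (mem_univ _)
  have hdiv : ∀ w : Ω, O.valuation w ≤ O.valuation (x (Sum.inr j)) → w / x (Sum.inr j) ∈ O :=
    fun w hw => (O.valuation_le_one_iff _).1 (by rw [map_div₀]; exact (div_le_one₀ hv0).2 hw)
  have hres : ∀ (w : Ω) (hw : O.valuation w ≤ γ),
      IsLocalRing.residue O ⟨w / x (Sum.inr j), hdiv w (hw.trans hlam.le)⟩ = 0 := fun w hw => by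
    rw [IsLocalRing.residue_eq_zero_iff, O.valuation_lt_one_iff]
    show O.valuation (w / x (Sum.inr j)) < 1
    rw [map_div₀]
    exact (div_lt_one₀ hv0).2 (hw.trans_lt hlam)
  let φ : LL (e + 1) →+* O := (algebraMap (LL (e + 1)) Ω).codRestrict O.toSubring hO
  let _ : Algebra (LL (e + 1)) O := φ.toAlgebra
  let _ : Algebra ℂ O := (φ.comp (algebraMap ℂ (LL (e + 1)))).toAlgebra
  have _ : IsScalarTower ℂ (LL (e + 1)) O := IsScalarTower.of_algebraMap_eq fun _ => rfl
  let ρ : O →ₐ[ℂ] IsLocalRing.ResidueField O := { IsLocalRing.residue O with commutes' := fun _ => rfl }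
  let ι : O →ₐ[ℂ] Ω := { O.subtype with
    commutes' := fun c => (IsScalarTower.algebraMap_apply ℂ (LL (e + 1)) Ω c).symm }
  let y : Ix (e + 1) → O := fun k => ⟨x k / x (Sum.inr j), hdiv _ (hx k)⟩
  let η : Fin (e + 1) → IsLocalRing.ResidueField O := fun l => ρ (y (Sum.inr l))
  have hη : η ≠ 0 := fun h0 => by
    have h1 : y (Sum.inr j) = 1 := Subtype.ext (div_self hl0)
    have h2 := congrFun h0 j
    simp only [η, h1, map_one, Pi.zero_apply] at h2
    exact one_ne_zero h2
  have hnv : ρ ∘ y = nv (So (e + 1) (IsLocalRing.ResidueField O)) η := by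
    funext k
    rcases k with i | i
    · have h1 := hres _ (hz i)
      have h2 : (⟨prj (So (e + 1) Ω) x i / x (Sum.inr j), hdiv _ ((hz i).trans hlam.le)⟩ : O) =
          y (Sum.inl i) + ∑ l, φ (SS (e + 1) i l) * y (Sum.inr l) := by
        apply Subtype.val_injective
        show prj (So (e + 1) Ω) x i / x (Sum.inr j) =
          ι (y (Sum.inl i) + ∑ l, φ (SS (e + 1) i l) * y (Sum.inr l))
        rw [map_add, map_sum]
        simp only [map_mul, prj, add_div, sum_div, mul_div_assoc]
        rfl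
      rw [h2, map_add, map_sum] at h1
      simp only [map_mul] at h1
      exact eq_neg_of_add_eq_zero_left h1
    · rfl
  obtain ⟨D, hD⟩ := exists_gen (d := e + 1) (Ω := IsLocalRing.ResidueField O)
  have h3 := tr3 hD hη
  obtain ⟨f, hf⟩ := exists_indep_of_le (nv (So (e + 1) (IsLocalRing.ResidueField O)) η) (e := e)
    (by omega)
  rw [← hnv] at hf
  let π : O := ⟨1 / x (Sum.inr j), hdiv 1 (by rw [map_one]; exact hγ.trans hlam.le)⟩
  have hπ0 : π ≠ 0 := fun h0 => by
    have := congrArg Subtype.val h0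
    simp [π, hl0] at this
  have h4 := val_indep ρ (y ∘ f) hf hπ0 (hres 1 (by rw [map_one]; exact hγ))
  have h5 := h4.map' (f := ι) Subtype.val_injective
  have h6 := le_finrank_Tan x h5 fun Θ hΘ i => by
    rcases i with _ | i
    · show Θ (1 / x (Sum.inr j)) = 0
      rw [Θ.leibniz_div, hΘ]
      simp
    · show Θ (x (f i) / x (Sum.inr j)) = 0
      rw [Θ.leibniz_div, hΘ, hΘ]
      simp
  simp at h6
  omega

end Crest.Agent.R65.KL
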